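import Vale.Agent.P143.Energy

/-!
Basic notions shared by the proof: spanning trees of a finite subgraph, uniform spanning tree
cylinder probabilities, and the free uniform spanning forest as their limit.
-/

namespace Vale.Agent.P143

open MeasureTheory Filter Topology

variable {V : Type*}

/-- The spanning trees of a subgraph `H`: subgraphs of `H` on all vertices of `H` which are trees. -/
def spanningTrees {G : SimpleGraph V} (H : G.Subgraph) : Set G.Subgraph :=
  {T | T ≤ H ∧ T.verts = H.verts ∧ T.coe.IsTree}

/-- The probability that a uniformly random spanning tree of `H` agrees with the pattern `ω`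
on the finite edge set `F`. -/
noncomputable def ustProb {G : SimpleGraph V} (H : G.Subgraph) (F : Finset (Sym2 V))
    (ω : Sym2 V → Bool) : ℝ :=
  ({T | T ∈ spanningTrees H ∧ ∀ f ∈ F, (f ∈ T.edgeSet ↔ ω f = true)}.ncard : ℝ) /
    ((spanningTrees H).ncard : ℝ)

/-- An increasing sequence of finite connected subgraphs with union `G`. -/
def IsExhaustion (G : SimpleGraph V) (H : ℕ → G.Subgraph) : Prop :=
  Monotone H ∧ (∀ n, (H n).verts.Finite ∧ (H n).Connected) ∧
    (∀ v, ∃ n, v ∈ (H n).verts) ∧ (∀ f ∈ G.edgeSet, ∃ n, f ∈ (H n).edgeSet)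

/-- `μ`, a random set of edges of `G` given by its indicator, is the free uniform spanning forest:
it is supported on edge sets of `G` and its cylinder probabilities are the limits of those of
uniform spanning trees along every exhaustion by finite connected subgraphs. -/
def IsFUSF (G : SimpleGraph V) (μ : Measure (Sym2 V → Bool)) : Prop :=
  IsProbabilityMeasure μ ∧ (∀ᵐ x ∂μ, ∀ f, x f = true → f ∈ G.edgeSet) ∧
    ∀ H : ℕ → G.Subgraph, IsExhaustion G H →
      ∀ F : Finset (Sym2 V), ↑F ⊆ G.edgeSet → ∀ ω : Sym2 V → Bool,
        Tendsto (fun n => ustProb (H n) F ω) atTop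
          (𝓝 (μ.real {x | ∀ f ∈ F, x f = ω f}))

/-- Indicator of the edge set of a graph. -/
noncomputable def edgeCode (G : SimpleGraph V) : Sym2 V → Bool := fun f =>
  haveI := Classical.propDecidable (f ∈ G.edgeSet)
  decide (f ∈ G.edgeSet)

theorem edgeCode_eq_true (G : SimpleGraph V) {f : Sym2 V} :
    edgeCode G f = true ↔ f ∈ G.edgeSet := by
  simp [edgeCode]

/-- Independent uniform labels. -/
noncomputable def labelLaw (V : Type*) : Measure (V → unitInterval) :=
  Measure.infinitePi fun _ => volume

end Vale.Agent.P143
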