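import Mathlib
import Vale.Agent.P143.Defs

/-!
Independent standard Gaussian variables on edges as a relabelling-equivariant measurable function
of independent uniform vertex labels: each vertex label is split into an order label and a
sequence of Gaussians; the edge `uv` receives the sum, divided by `√2`, of the Gaussian of `u`
numbered by the rank of `v` among the neighbours of `u` and the same with `u` and `v` exchanged.
-/

namespace Vale.Agent.P143

open MeasureTheory ProbabilityTheory

variable {V V' : Type*}

/-- A uniform label split into a sequence of independent uniform labels. -/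
noncomputable def splitLabel : unitInterval → (ℕ → unitInterval) :=
  (Measure.exists_measurable_map_eq
    (Measure.infinitePi fun _ : ℕ => (volume : Measure unitInterval))).choose

theorem measurable_splitLabel : Measurable splitLabel :=
  (Measure.exists_measurable_map_eq
    (Measure.infinitePi fun _ : ℕ => (volume : Measure unitInterval))).choose_spec.1

theorem map_splitLabel :
    (volume : Measure unitInterval).map splitLabel =
      Measure.infinitePi fun _ : ℕ => (volume : Measure unitInterval) :=
  (Measure.exists_measurable_map_eq
    (Measure.infinitePi fun _ : ℕ => (volume : Measure unitInterval))).choose_spec.2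

/-- A standard Gaussian function of a uniform label. -/
noncomputable def toGauss : unitInterval → ℝ :=
  (Measure.exists_measurable_map_eq (gaussianReal 0 1)).choose

theorem measurable_toGauss : Measurable toGauss :=
  (Measure.exists_measurable_map_eq (gaussianReal 0 1)).choose_spec.1

theorem map_toGauss : (volume : Measure unitInterval).map toGauss = gaussianReal 0 1 :=
  (Measure.exists_measurable_map_eq (gaussianReal 0 1)).choose_spec.2

/-- The rank of `v` among the neighbours of `u`, by order labels. -/
noncomputable def nbrRank (A : Sym2 V → Bool) (L : V → unitInterval) (u v : V) : ℕ :=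
  {w | A s(u, w) = true ∧ L w < L v}.ncard

/-- Edge noise from order labels and Gaussian labels. -/
noncomputable def noiseFrom (A : Sym2 V → Bool) (L : V → unitInterval)
    (R : V × ℕ → unitInterval) : Sym2 V → ℝ :=
  Sym2.lift ⟨fun u v =>
      (toGauss (R (u, nbrRank A L u v)) + toGauss (R (v, nbrRank A L v u))) / Real.sqrt 2,
    fun u v => by dsimp only; rw [add_comm]⟩

/-- Edge noise from vertex labels. -/
noncomputable def edgeNoise (A : Sym2 V → Bool) (U : V → unitInterval) : Sym2 V → ℝ :=
  noiseFrom A (fun v => splitLabel (U v) 0) fun i => splitLabel (U i.1) (i.2 + 1)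

theorem measurable_nbrRank [Countable V] (u v : V) :
    Measurable fun p : (Sym2 V → Bool) × (V → unitInterval) => nbrRank p.1 p.2 u v := by
  refine measurable_ncard.comp (measurable_set_iff.mpr fun w => ?_)
  refine measurableSet_setOfPred.mp (MeasurableSet.inter ?_ ?_)
  · exact measurableSet_eq_fun ((measurable_pi_apply s(u, w)).comp measurable_fst) measurable_const
  · exact measurableSet_lt
      (measurable_subtype_coe.comp ((measurable_pi_apply w).comp measurable_snd))
      (measurable_subtype_coe.comp ((measurable_pi_apply v).comp measurable_snd))

theorem measurable_eval_nat {Ω : Type*} [MeasurableSpace Ω] {F : ℕ → Ω → ℝ} {r : Ω → ℕ}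
    (hF : ∀ k, Measurable (F k)) (hr : Measurable r) : Measurable fun ω => F (r ω) ω := by
  have h : Measurable fun p : ℕ × Ω => F p.1 p.2 := measurable_from_prod_countable_right hF
  exact h.comp (hr.prodMk measurable_id)

theorem measurable_noiseFrom [Countable V] (e : Sym2 V) :
    Measurable fun p : (Sym2 V → Bool) × (V → unitInterval) × (V × ℕ → unitInterval) =>
      noiseFrom p.1 p.2.1 p.2.2 e := by
  induction e using Sym2.ind with
  | _ u v =>
    have h : ∀ a b : V, Measurable
        fun p : (Sym2 V → Bool) × (V → unitInterval) × (V × ℕ → unitInterval) =>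
          toGauss (p.2.2 (a, nbrRank p.1 p.2.1 a b)) := fun a b =>
      measurable_eval_nat (F := fun k
        (p : (Sym2 V → Bool) × (V → unitInterval) × (V × ℕ → unitInterval)) =>
          toGauss (p.2.2 (a, k)))
        (fun k => measurable_toGauss.comp
          ((measurable_pi_apply (a, k)).comp (measurable_snd.comp measurable_snd)))
        ((measurable_nbrRank a b).comp
          (measurable_fst.prodMk (measurable_fst.comp measurable_snd)))
    exact ((h u v).add (h v u)).div_const _

theorem measurable_edgeNoise [Countable V] (e : Sym2 V) :
    Measurable fun p : (Sym2 V → Bool) × (V → unitInterval) => edgeNoise p.1 p.2 e := by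
  refine (measurable_noiseFrom e).comp (measurable_fst.prodMk (Measurable.prodMk ?_ ?_))
  · exact measurable_pi_lambda _ fun v =>
      (measurable_pi_apply 0).comp
        (measurable_splitLabel.comp ((measurable_pi_apply v).comp measurable_snd))
  · exact measurable_pi_lambda _ fun i =>
      (measurable_pi_apply (i.2 + 1)).comp
        (measurable_splitLabel.comp ((measurable_pi_apply i.1).comp measurable_snd))

theorem edgeNoise_map (σ : V ≃ V') (A : Sym2 V' → Bool) (U : V' → unitInterval) (e : Sym2 V) :
    edgeNoise (A ∘ Sym2.map σ) (U ∘ σ) e = edgeNoise A U (Sym2.map σ e) := by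
  induction e using Sym2.ind with
  | _ u v =>
    have h : ∀ a b : V,
        nbrRank (A ∘ Sym2.map σ) (fun w => splitLabel ((U ∘ σ) w) 0) a b =
          nbrRank A (fun w => splitLabel (U w) 0) (σ a) (σ b) := by
      intro a b
      unfold nbrRank
      rw [← Set.ncard_image_of_injective _ σ.injective, σ.image_eq_preimage_symm]
      congr 1
      ext w
      simp
    simp only [edgeNoise, noiseFrom, Sym2.map_mk, Sym2.lift_mk, h]
    rfl

/-- Gluing order labels and Gaussian labels into one family indexed by `V × ℕ`. -/
def glueLabels (p : (V → unitInterval) × (V × ℕ → unitInterval)) (i : V × ℕ) : unitInterval :=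
  match i.2 with
  | 0 => p.1 i.1
  | k + 1 => p.2 (i.1, k)

theorem measurable_glueLabels : Measurable (glueLabels (V := V)) := by
  refine measurable_pi_lambda _ fun i => ?_
  obtain ⟨v, k⟩ := i
  cases k with
  | zero => exact (measurable_pi_apply v).comp measurable_fst
  | succ k => exact (measurable_pi_apply (v, k)).comp measurable_snd

/-- The split labels: the order labels and the Gaussian labels are independent and i.i.d. -/
theorem map_split_labels :
    (labelLaw V).map (fun U => ((fun v => splitLabel (U v) 0),
        fun i : V × ℕ => splitLabel (U i.1) (i.2 + 1))) =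
      (Measure.infinitePi fun _ : V => (volume : Measure unitInterval)).prod
        (Measure.infinitePi fun _ : V × ℕ => (volume : Measure unitInterval)) := by
  classical
  -- the law of all split labels
  have hall : (labelLaw V).map (fun U (i : V × ℕ) => splitLabel (U i.1) i.2) =
      Measure.infinitePi fun _ : V × ℕ => (volume : Measure unitInterval) := by
    rw [← Measure.infinitePi_map_curry_symm
      (fun (_ : V) (_ : ℕ) => (volume : Measure unitInterval))]
    have h1 : (labelLaw V).map (fun U (v : V) => splitLabel (U v)) =
        Measure.infinitePi fun _ : V =>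
          Measure.infinitePi fun _ : ℕ => (volume : Measure unitInterval) := by
      rw [labelLaw, Measure.infinitePi_map_pi (μ := fun _ : V => (volume : Measure unitInterval))
        (f := fun _ => splitLabel) (fun _ => measurable_splitLabel)]
      simp only [map_splitLabel]
    rw [← h1]
    have hm : Measurable fun (U : V → unitInterval) (v : V) => splitLabel (U v) :=
      measurable_pi_lambda _ fun v => measurable_splitLabel.comp (measurable_pi_apply v)
    exact (Measure.map_map (MeasurableEquiv.curry V ℕ unitInterval).symm.measurable hm).symm
  have hsep : Measurable fun X : V × ℕ → unitInterval =>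
      ((fun v => X (v, 0)), fun i : V × ℕ => X (i.1, i.2 + 1)) :=
    (measurable_pi_lambda _ fun v => measurable_pi_apply _).prodMk
      (measurable_pi_lambda _ fun i => measurable_pi_apply _)
  have hglue : ((Measure.infinitePi fun _ : V => (volume : Measure unitInterval)).prod
      (Measure.infinitePi fun _ : V × ℕ => (volume : Measure unitInterval))).map glueLabels =
      Measure.infinitePi fun _ : V × ℕ => (volume : Measure unitInterval) := by
    refine Measure.eq_infinitePi _ fun s t ht => ?_
    let s0 : Finset V := (s.filter fun i => i.2 = 0).image Prod.fst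
    let s1 : Finset (V × ℕ) := (s.filter fun i => i.2 ≠ 0).image fun i => (i.1, i.2 - 1)
    have hpre : glueLabels (V := V) ⁻¹' (s : Set (V × ℕ)).pi t =
        ((s0 : Set V).pi fun v => t (v, 0)) ×ˢ
          ((s1 : Set (V × ℕ)).pi fun i => t (i.1, i.2 + 1)) := by
      ext p
      simp only [Set.mem_preimage, Set.mem_pi, Finset.mem_coe, Set.mem_prod, s0, s1,
        Finset.mem_image, Finset.mem_filter]
      constructor
      · intro h
        refine ⟨?_, ?_⟩
        · rintro v ⟨⟨w, k⟩, ⟨hi, hk⟩, hv⟩
          simp only at hk hv
          subst hk hv
          exact h _ hi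
        · rintro j ⟨⟨w, k⟩, ⟨hi, hk⟩, hj⟩
          simp only at hk hj
          subst hj
          obtain ⟨k', rfl⟩ := Nat.exists_eq_succ_of_ne_zero hk
          exact h _ hi
      · rintro ⟨h0, h1⟩ ⟨v, k⟩ hi
        cases k with
        | zero => exact h0 v ⟨(v, 0), ⟨hi, rfl⟩, rfl⟩
        | succ k => exact h1 (v, k) ⟨(v, k + 1), ⟨hi, by simp⟩, rfl⟩
    rw [Measure.map_apply measurable_glueLabels (.pi s.countable_toSet fun i _ => ht i), hpre,
      Measure.prod_prod, Measure.infinitePi_pi _ (fun v _ => ht _),
      Measure.infinitePi_pi _ (fun i _ => ht _),
      ← Finset.prod_filter_mul_prod_filter_not s (fun i => i.2 = 0)]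
    simp only [s0, s1]
    rw [Finset.prod_image (fun a ha b hb h => by
        simp only [Finset.mem_coe, Finset.mem_filter] at ha hb
        exact Prod.ext h (ha.2.trans hb.2.symm)),
      Finset.prod_image (fun a ha b hb h => by
        simp only [Finset.mem_coe, Finset.mem_filter, ne_eq] at ha hb
        simp only [Prod.mk.injEq] at h
        exact Prod.ext h.1 (by omega))]
    congr 1
    · refine Finset.prod_congr rfl fun i hi => ?_
      obtain ⟨v, k⟩ := i
      simp only [Finset.mem_filter] at hi
      simp only [hi.2]
    · refine Finset.prod_congr rfl fun i hi => ?_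
      obtain ⟨v, k⟩ := i
      simp only [Finset.mem_filter] at hi
      obtain ⟨k', rfl⟩ := Nat.exists_eq_succ_of_ne_zero hi.2
      rfl
  calc (labelLaw V).map (fun U => ((fun v => splitLabel (U v) 0),
          fun i : V × ℕ => splitLabel (U i.1) (i.2 + 1)))
      = ((labelLaw V).map (fun U (i : V × ℕ) => splitLabel (U i.1) i.2)).map
          (fun X => ((fun v => X (v, 0)), fun i : V × ℕ => X (i.1, i.2 + 1))) := by
        have hm : Measurable fun (U : V → unitInterval) (i : V × ℕ) =>
            splitLabel (U i.1) i.2 :=
          measurable_pi_lambda _ fun i => (measurable_pi_apply i.2).comp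
            (measurable_splitLabel.comp (measurable_pi_apply i.1))
        exact (Measure.map_map hsep hm).symm
    _ = _ := by
        rw [hall]
        conv_lhs => rw [← hglue, Measure.map_map hsep measurable_glueLabels]
        exact Measure.map_id

/-- Almost surely all order labels are different. -/
theorem ae_injective_labels [Countable V] :
    ∀ᵐ L ∂(Measure.infinitePi fun _ : V => (volume : Measure unitInterval)),
      Function.Injective L := by
  set P := Measure.infinitePi fun _ : V => (volume : Measure unitInterval)
  have h : ∀ p : V × V, ∀ᵐ L ∂P, p.1 ≠ p.2 → L p.1 ≠ L p.2 := by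
    rintro ⟨v, w⟩
    by_cases hvw : v = w
    · exact Filter.Eventually.of_forall fun L h => absurd hvw h
    have hind : IndepFun (fun L : V → unitInterval => L v) (fun L => L w) P :=
      (iIndepFun_infinitePi (P := fun _ : V => (volume : Measure unitInterval))
        (X := fun _ x => x) (fun _ => measurable_id)).indepFun hvw
    have hlaw : P.map (fun L => (L v, L w)) =
        (volume : Measure unitInterval).prod (volume : Measure unitInterval) := by
      rw [(indepFun_iff_map_prod_eq_prod_map_map (measurable_pi_apply v).aemeasurable
        (measurable_pi_apply w).aemeasurable).mp hind, Measure.infinitePi_map_eval,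
        Measure.infinitePi_map_eval]
    have hnull : P {L | L v = L w} = 0 := by
      have hd : MeasurableSet {q : unitInterval × unitInterval | q.1 = q.2} :=
        measurableSet_eq_fun measurable_fst measurable_snd
      have hm : Measurable fun L : V → unitInterval => (L v, L w) :=
        (measurable_pi_apply v).prodMk (measurable_pi_apply w)
      rw [show {L : V → unitInterval | L v = L w}
          = (fun L => (L v, L w)) ⁻¹' {q | q.1 = q.2} from rfl,
        ← Measure.map_apply hm hd, hlaw, Measure.prod_apply hd]
      have : ∀ x : unitInterval, Prod.mk x ⁻¹' {q : unitInterval × unitInterval | q.1 = q.2}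
          = {x} := fun x => by ext y; simp [eq_comm]
      simp [this]
    rw [ae_iff]
    exact measure_mono_null (fun L hL => by
      simp only [Set.mem_ofPred_eq, Classical.not_imp, not_not] at hL
      exact hL.2) hnull
  filter_upwards [ae_all_iff.mpr h] with L hL
  intro a b hab
  by_contra hne
  exact hL (a, b) hne hab

theorem nbrRank_lt {A : Sym2 V → Bool} (hA : LocFin A) (L : V → unitInterval) {u v v' : V}
    (hv : A s(u, v) = true) (hlt : L v < L v') : nbrRank A L u v < nbrRank A L u v' := by
  refine Set.ncard_lt_ncard ?_ ?_
  · refine ⟨fun w hw => ⟨hw.1, hw.2.trans hlt⟩, fun hsub => ?_⟩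
    exact lt_irrefl _ (hsub (⟨hv, hlt⟩ : v ∈ {w | A s(u, w) = true ∧ L w < L v'})).2
  · refine (((hA u).preimage (f := fun w => s(u, w)) ?_)).subset fun w hw => ?_
    · exact fun a _ b _ h => Sym2.congr_right.mp h
    · exact ⟨hw.1, Sym2.mem_mk_left u w⟩

theorem nbrRank_inj {A : Sym2 V → Bool} (hA : LocFin A) {L : V → unitInterval}
    (hL : Function.Injective L) {u v v' : V} (hv : A s(u, v) = true) (hv' : A s(u, v') = true)
    (h : nbrRank A L u v = nbrRank A L u v') : v = v' := by
  rcases lt_trichotomy (L v) (L v') with hlt | heq | hlt
  · exact absurd h (nbrRank_lt hA L hv hlt).ne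
  · exact hL heq
  · exact absurd h (nbrRank_lt hA L hv' hlt).ne'

/-- The law of a pair of standard Gaussians added and divided by `√2`. -/
theorem map_pair_gauss :
    (Measure.infinitePi fun _ : Bool => (volume : Measure unitInterval)).map
      (fun x => (toGauss (x false) + toGauss (x true)) / Real.sqrt 2) = gaussianReal 0 1 := by
  set P := Measure.infinitePi fun _ : Bool => (volume : Measure unitInterval)
  have hm : ∀ b : Bool, Measurable fun x : Bool → unitInterval => toGauss (x b) :=
    fun b => measurable_toGauss.comp (measurable_pi_apply b)
  have hind : IndepFun (fun x : Bool → unitInterval => toGauss (x false))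
      (fun x => toGauss (x true)) P :=
    (iIndepFun_infinitePi (P := fun _ : Bool => (volume : Measure unitInterval))
      (X := fun _ => toGauss) (fun _ => measurable_toGauss)).indepFun Bool.false_ne_true
  have hlaw : ∀ b : Bool, P.map (fun x => toGauss (x b)) = gaussianReal 0 1 := by
    intro b
    have := Measure.map_map (μ := P) measurable_toGauss (measurable_pi_apply b)
    rw [Measure.infinitePi_map_eval, map_toGauss] at this
    exact this.symm
  have hsum := gaussianReal_add_gaussianReal_of_indepFun hind (hlaw false) (hlaw true)
  have hcomp : (fun x : Bool → unitInterval => (toGauss (x false) + toGauss (x true)) / Real.sqrt 2)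
      = (fun y => y / Real.sqrt 2) ∘
        ((fun x => toGauss (x false)) + fun x => toGauss (x true)) := rfl
  rw [hcomp, ← Measure.map_map (g := fun y : ℝ => y / Real.sqrt 2) (by fun_prop) ((hm false).add (hm true)), hsum,
    gaussianReal_map_div_const]
  congr 1
  · simp
  · ext
    norm_num

theorem edgeNoise_law [Countable V] {A : Sym2 V → Bool} (hA : LocFin A)
    (hdiag : ∀ f, A f = true → ¬ f.IsDiag) (S : Finset (Sym2 V))
    (hS : ∀ f ∈ S, A f = true) :
    (labelLaw V).map (fun U (f : S) => edgeNoise A U f) =
      Measure.pi fun _ : S => gaussianReal 0 1 := by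
  classical
  set P0 := Measure.infinitePi fun _ : V => (volume : Measure unitInterval)
  set P1 := Measure.infinitePi fun _ : V × ℕ => (volume : Measure unitInterval)
  set split : (V → unitInterval) → (V → unitInterval) × (V × ℕ → unitInterval) := fun U =>
    ((fun v => splitLabel (U v) 0), fun i : V × ℕ => splitLabel (U i.1) (i.2 + 1)) with hsplit
  set Ψ : (V → unitInterval) × (V × ℕ → unitInterval) → (S → ℝ) :=
    fun q f => noiseFrom A q.1 q.2 f with hΨ
  have hsplitm : Measurable split :=
    (measurable_pi_lambda _ fun v => (measurable_pi_apply 0).comp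
      (measurable_splitLabel.comp (measurable_pi_apply v))).prodMk
    (measurable_pi_lambda _ fun i => (measurable_pi_apply (i.2 + 1)).comp
      (measurable_splitLabel.comp (measurable_pi_apply i.1)))
  have hΨm : Measurable Ψ := measurable_pi_lambda _ fun f =>
    (measurable_noiseFrom (f : Sym2 V)).comp
      ((measurable_const (a := A)).prodMk (measurable_fst.prodMk measurable_snd))
  have hmap : (labelLaw V).map split = P0.prod P1 := map_split_labels
  calc (labelLaw V).map (fun U (f : S) => edgeNoise A U f)
      = ((labelLaw V).map split).map Ψ := by
        rw [Measure.map_map hΨm hsplitm]; rfl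
    _ = (P0.prod P1).map Ψ := by rw [hmap]
    _ = Measure.pi fun _ : S => gaussianReal 0 1 := ?_
  have hae : ∀ᵐ L ∂P0, P1.map (fun R => Ψ (L, R)) = Measure.pi fun _ : S => gaussianReal 0 1 := by
    filter_upwards [ae_injective_labels] with L hL
    have hrep : ∀ f : S, ∃ a b : V, s(a, b) = (f : Sym2 V) := fun f => by
      induction (f : Sym2 V) using Sym2.ind with
      | _ a b => exact ⟨a, b, rfl⟩
    choose a b hab using hrep
    have hne : ∀ f : S, a f ≠ b f := fun f h => hdiag _ (hS f f.2) (by
      rw [← hab f, h]; exact Sym2.diag_isDiag (b f))
    have hadj : ∀ f : S, A s(a f, b f) = true := fun f => by rw [hab f]; exact hS f f.2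
    let ι : S × Bool → V × ℕ := fun x =>
      if x.2 then (b x.1, nbrRank A L (b x.1) (a x.1)) else (a x.1, nbrRank A L (a x.1) (b x.1))
    -- a half edge is determined by its index
    let tail : S × Bool → V := fun x => if x.2 then b x.1 else a x.1
    let head : S × Bool → V := fun x => if x.2 then a x.1 else b x.1
    have hι : ∀ x, ι x = (tail x, nbrRank A L (tail x) (head x)) := by
      rintro ⟨f, _ | _⟩ <;> rfl
    have hth : ∀ x, s(tail x, head x) = (x.1 : Sym2 V) := by
      rintro ⟨f, _ | _⟩
      · exact hab f
      · exact (Sym2.eq_swap).trans (hab f)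
    have hinj : Function.Injective ι := by
      intro x y h
      rw [hι, hι, Prod.mk.injEq] at h
      obtain ⟨h1, h2⟩ := h
      have hhead : head x = head y := by
        rw [h1] at h2
        refine nbrRank_inj hA hL ?_ ?_ h2
        · rw [← h1, hth x]; exact hS _ x.1.2
        · rw [hth y]; exact hS _ y.1.2
      have hf : x.1 = y.1 := Subtype.ext (by rw [← hth x, ← hth y, h1, hhead])
      refine Prod.ext hf ?_
      obtain ⟨f, c⟩ := x
      obtain ⟨f', c'⟩ := y
      simp only at hf
      subst hf
      have := hne f
      cases c <;> cases c' <;> simp only [tail, Bool.false_eq_true, if_false, if_true] at h1 <;>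
        first | rfl | exact absurd h1 this | exact absurd h1.symm this
    have hpull : P1.map (fun R (x : S × Bool) => R (ι x)) =
        Measure.infinitePi fun _ : S × Bool => (volume : Measure unitInterval) := by
      refine Measure.eq_infinitePi _ fun s t ht => ?_
      have hmι : Measurable fun (R : V × ℕ → unitInterval) (x : S × Bool) => R (ι x) :=
        measurable_pi_lambda _ fun x => measurable_pi_apply _
      rw [Measure.map_apply hmι (.pi s.countable_toSet fun i _ => ht i)]
      let t' : V × ℕ → Set unitInterval := fun i => ⋂ x ∈ s.filter (fun x => ι x = i), t x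
      have hpre : (fun R (x : S × Bool) => R (ι x)) ⁻¹' (s : Set (S × Bool)).pi t =
          ((s.image ι : Finset (V × ℕ)) : Set (V × ℕ)).pi t' := by
        ext R
        simp only [Set.mem_preimage, Set.mem_pi, Finset.mem_coe, Finset.mem_image, t',
          Set.mem_iInter, Finset.mem_filter]
        constructor
        · rintro h i _ x ⟨hx, rfl⟩; exact h x hx
        · intro h x hx; exact h _ ⟨x, hx, rfl⟩ x ⟨hx, rfl⟩
      rw [hpre, Measure.infinitePi_pi _ (fun i _ =>
          Finset.measurableSet_biInter _ fun x _ => ht x),
        Finset.prod_image (fun x _ y _ h => hinj h)]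
      refine Finset.prod_congr rfl fun x hx => ?_
      have : s.filter (fun y => ι y = ι x) = {x} := by
        ext y
        simp only [Finset.mem_filter, Finset.mem_singleton]
        exact ⟨fun h => hinj h.2, fun h => by subst h; exact ⟨hx, rfl⟩⟩
      simp only [this, Finset.mem_singleton, Set.iInter_iInter_eq_left]
    have hfun : (fun R => Ψ (L, R)) =
        (fun x (f : S) => (toGauss (x f false) + toGauss (x f true)) / Real.sqrt 2) ∘
          (MeasurableEquiv.curry S Bool unitInterval) ∘ fun R x => R (ι x) := by
      funext R f
      have : noiseFrom A L R (f : Sym2 V) = noiseFrom A L R s(a f, b f) := by rw [hab]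
      exact this.trans rfl
    have hm1 : Measurable fun (R : V × ℕ → unitInterval) (x : S × Bool) => R (ι x) :=
      measurable_pi_lambda _ fun x => measurable_pi_apply _
    have hy : ∀ b : Bool, Measurable fun y : Bool → unitInterval => toGauss (y b) :=
      fun b => measurable_toGauss.comp (measurable_pi_apply b)
    have hg : Measurable fun y : Bool → unitInterval =>
        (toGauss (y false) + toGauss (y true)) / Real.sqrt 2 :=
      ((hy false).add (hy true)).div_const _
    have hm2 : Measurable fun (x : S → Bool → unitInterval) (f : S) =>
        (toGauss (x f false) + toGauss (x f true)) / Real.sqrt 2 :=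
      measurable_pi_lambda _ fun f => hg.comp (measurable_pi_apply f)
    rw [hfun, ← Measure.map_map hm2 ((MeasurableEquiv.measurable _).comp hm1),
      ← Measure.map_map (MeasurableEquiv.measurable _) hm1, hpull,
      Measure.infinitePi_map_curry (fun (_ : S) (_ : Bool) => (volume : Measure unitInterval)),
      Measure.infinitePi_map_pi (μ := fun _ : S =>
          Measure.infinitePi fun _ : Bool => (volume : Measure unitInterval))
        (f := fun _ : S => fun y : Bool → unitInterval =>
          (toGauss (y false) + toGauss (y true)) / Real.sqrt 2) (fun _ => hg)]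
    simp only [map_pair_gauss]
    rw [Measure.infinitePi_eq_pi]
  refine Measure.ext fun B hB => ?_
  rw [Measure.map_apply hΨm hB, Measure.prod_apply (hΨm hB)]
  calc ∫⁻ L, P1 (Prod.mk L ⁻¹' (Ψ ⁻¹' B)) ∂P0
      = ∫⁻ _L, (Measure.pi fun _ : S => gaussianReal 0 1) B ∂P0 := by
        refine lintegral_congr_ae ?_
        filter_upwards [hae] with L hL
        rw [← hL]
        exact (Measure.map_apply (hΨm.comp measurable_prodMk_left) hB).symm
    _ = _ := by simp

end Vale.Agent.P143
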