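import Mathlib

/-!
Free effective conductances and free one-edge marginals of the weighted spanning forest,
defined through Dirichlet energies on finite windows.
-/

namespace Vale.Agent.P143

open Filter Topology

variable {V : Type*}

/-- Squared gradient of a potential along an unordered pair. -/
def gradSq (φ : V → ℝ) : Sym2 V → ℝ :=
  Sym2.lift ⟨fun u v => (φ u - φ v) ^ 2, fun u v => by ring⟩

@[simp] theorem gradSq_mk (φ : V → ℝ) (u v : V) : gradSq φ s(u, v) = (φ u - φ v) ^ 2 := rfl

theorem gradSq_nonneg (φ : V → ℝ) (f : Sym2 V) : 0 ≤ gradSq φ f := by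
  induction f using Sym2.ind with
  | h u v => simpa using sq_nonneg (φ u - φ v)

theorem gradSq_map {V' : Type*} (σ : V → V') (φ : V' → ℝ) (f : Sym2 V) :
    gradSq φ (Sym2.map σ f) = gradSq (φ ∘ σ) f := by
  induction f using Sym2.ind with
  | h u v => rfl

open scoped Classical in
/-- Energy of a potential in the window `S`, with the distinguished pair `e` counted once. -/
noncomputable def winEnergy (A : Sym2 V → Bool) (S : Finset (Sym2 V)) (Y : Sym2 V → ℝ)
    (e : Sym2 V) (φ : V → ℝ) : ℝ :=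
  Real.exp (Y e) + ∑ f ∈ S, if A f = true ∧ f ≠ e then Real.exp (Y f) * gradSq φ f else 0

/-- Minimal energy in a window of a potential with unit jump along `e`. -/
noncomputable def winCond (A : Sym2 V → Bool) (S : Finset (Sym2 V)) (Y : Sym2 V → ℝ)
    (e : Sym2 V) : ℝ :=
  ⨅ φ : {φ : V → ℝ // gradSq φ e = 1}, winEnergy A S Y e φ.1

/-- Free effective conductance between the endpoints of `e`. -/
noncomputable def effCond (A : Sym2 V → Bool) (Y : Sym2 V → ℝ) (e : Sym2 V) : ℝ :=
  ⨆ S : Finset (Sym2 V), winCond A S Y e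

/-- Window marginal. -/
noncomputable def winMarg (A : Sym2 V → Bool) (S : Finset (Sym2 V)) (Y : Sym2 V → ℝ)
    (e : Sym2 V) : ℝ :=
  Real.exp (Y e) / winCond A S Y e

/-- Free marginal. -/
noncomputable def marg (A : Sym2 V → Bool) (Y : Sym2 V → ℝ) (e : Sym2 V) : ℝ :=
  Real.exp (Y e) / effCond A Y e

/-- Each point lies in only finitely many selected pairs. -/
def LocFin (A : Sym2 V → Bool) : Prop := ∀ v : V, {f | A f = true ∧ v ∈ f}.Finite

variable {A : Sym2 V → Bool} {S S' : Finset (Sym2 V)} {Y Y' : Sym2 V → ℝ} {e : Sym2 V}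

theorem exp_le_winEnergy (φ : V → ℝ) : Real.exp (Y e) ≤ winEnergy A S Y e φ := by
  classical
  refine le_add_of_nonneg_right (Finset.sum_nonneg fun f _ => ?_)
  split_ifs
  · exact mul_nonneg (Real.exp_pos _).le (gradSq_nonneg φ f)
  · exact le_rfl

theorem winEnergy_nonneg (φ : V → ℝ) : 0 ≤ winEnergy A S Y e φ :=
  (Real.exp_pos _).le.trans (exp_le_winEnergy φ)

theorem bddBelow_winEnergy :
    BddBelow (Set.range fun φ : {φ : V → ℝ // gradSq φ e = 1} => winEnergy A S Y e φ.1) :=
  ⟨0, by rintro _ ⟨φ, rfl⟩; exact winEnergy_nonneg _⟩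

theorem winCond_nonneg : 0 ≤ winCond A S Y e := Real.iInf_nonneg fun _ => winEnergy_nonneg _

theorem winCond_le (φ : V → ℝ) (h : gradSq φ e = 1) : winCond A S Y e ≤ winEnergy A S Y e φ :=
  ciInf_le bddBelow_winEnergy (⟨φ, h⟩ : {φ : V → ℝ // gradSq φ e = 1})

/-- Either the pair is degenerate, or every window conductance is at least its own weight. -/
theorem winCond_cases :
    ((∀ S Y, winCond A S Y e = 0) ∧ IsEmpty {φ : V → ℝ // gradSq φ e = 1}) ∨
      (∀ S Y, Real.exp (Y e) ≤ winCond A S Y e) := by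
  by_cases h : Nonempty {φ : V → ℝ // gradSq φ e = 1}
  · exact Or.inr fun S Y => le_ciInf fun φ => exp_le_winEnergy φ.1
  · rw [not_nonempty_iff] at h
    exact Or.inl ⟨fun S Y => Real.iInf_of_isEmpty _, h⟩

theorem winEnergy_scale (φ : V → ℝ) {ε : ℝ}
    (hA : ∀ f ∈ S, A f = true → f ≠ e → Y' f ≤ Y f + ε) (he : Y' e ≤ Y e + ε) :
    winEnergy A S Y' e φ ≤ Real.exp ε * winEnergy A S Y e φ := by
  classical
  rw [winEnergy, winEnergy, mul_add, Finset.mul_sum]
  refine add_le_add ?_ (Finset.sum_le_sum fun f hf => ?_)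
  · rw [← Real.exp_add]; exact Real.exp_le_exp.2 (by linarith)
  · split_ifs with h
    · have := hA f hf h.1 h.2
      rw [← mul_assoc, ← Real.exp_add]
      exact mul_le_mul_of_nonneg_right (Real.exp_le_exp.2 (by linarith)) (gradSq_nonneg φ f)
    · simp

theorem winCond_scale {ε : ℝ}
    (hA : ∀ f ∈ S, A f = true → f ≠ e → Y' f ≤ Y f + ε) (he : Y' e ≤ Y e + ε) :
    winCond A S Y' e ≤ Real.exp ε * winCond A S Y e := by
  rcases winCond_cases (A := A) (e := e) with ⟨h, -⟩ | -
  · simp [h]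
  rw [winCond, winCond, Real.mul_iInf_of_nonneg (Real.exp_pos ε).le]
  exact ciInf_mono bddBelow_winEnergy fun φ => winEnergy_scale φ.1 hA he

theorem winCond_mono (h : S ⊆ S') : winCond A S Y e ≤ winCond A S' Y e := by
  classical
  refine ciInf_mono bddBelow_winEnergy fun φ => ?_
  refine add_le_add le_rfl (Finset.sum_le_sum_of_subset_of_nonneg h fun f _ _ => ?_)
  split_ifs
  · exact mul_nonneg (Real.exp_pos _).le (gradSq_nonneg φ.1 f)
  · exact le_rfl

theorem winEnergy_filter (φ : V → ℝ) :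
    winEnergy A (S.filter fun f => A f = true) Y e φ = winEnergy A S Y e φ := by
  classical
  simp only [winEnergy]
  rw [Finset.sum_filter]
  congr 1
  refine Finset.sum_congr rfl fun f _ => ?_
  by_cases h : A f = true <;> simp [h]

theorem winCond_filter : winCond A (S.filter fun f => A f = true) Y e = winCond A S Y e := by
  simp only [winCond, winEnergy_filter]

theorem winEnergy_congr {A' : Sym2 V → Bool} (φ : V → ℝ) (hA : ∀ f ∈ S, A' f = A f)
    (hY : ∀ f ∈ S, Y' f = Y f) (he : Y' e = Y e) :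
    winEnergy A' S Y' e φ = winEnergy A S Y e φ := by
  classical
  simp only [winEnergy, he]
  congr 1
  exact Finset.sum_congr rfl fun f hf => by rw [hA f hf, hY f hf]

theorem winCond_congr {A' : Sym2 V → Bool} (hA : ∀ f ∈ S, A' f = A f)
    (hY : ∀ f ∈ S, Y' f = Y f) (he : Y' e = Y e) : winCond A' S Y' e = winCond A S Y e := by
  simp only [winCond, winEnergy_congr _ hA hY he]

theorem div_mem_Icc {w c : ℝ} (hw : 0 < w) (h : c = 0 ∨ w ≤ c) : w / c ∈ Set.Icc (0 : ℝ) 1 := by
  rcases h with rfl | h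
  · simp
  · exact ⟨div_nonneg hw.le (hw.le.trans h), div_le_one_of_le₀ h (hw.le.trans h)⟩

theorem winCond_eq_zero_or : winCond A S Y e = 0 ∨ Real.exp (Y e) ≤ winCond A S Y e := by
  rcases winCond_cases (A := A) (e := e) with ⟨h, -⟩ | h
  · exact Or.inl (h S Y)
  · exact Or.inr (h S Y)

theorem winMarg_mem : winMarg A S Y e ∈ Set.Icc (0 : ℝ) 1 :=
  div_mem_Icc (Real.exp_pos _) winCond_eq_zero_or

theorem effCond_eq_zero_or : effCond A Y e = 0 ∨ Real.exp (Y e) ≤ effCond A Y e := by
  rcases winCond_cases (A := A) (e := e) with ⟨h, -⟩ | h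
  · exact Or.inl (by simp [effCond, h])
  · by_cases hb : BddAbove (Set.range fun S => winCond A S Y e)
    · exact Or.inr ((h ∅ Y).trans (le_ciSup hb ∅))
    · exact Or.inl (Real.iSup_of_not_bddAbove hb)

theorem marg_mem : marg A Y e ∈ Set.Icc (0 : ℝ) 1 :=
  div_mem_Icc (Real.exp_pos _) effCond_eq_zero_or

theorem div_lipschitz {ε y y' c c' : ℝ} (hε : |y - y'| ≤ ε) (hc0 : 0 ≤ c') (hc0' : 0 ≤ c)
    (h : c' ≤ Real.exp ε * c) (h' : c ≤ Real.exp ε * c')
    (hm : Real.exp y / c ∈ Set.Icc (0 : ℝ) 1) (hm' : Real.exp y' / c' ∈ Set.Icc (0 : ℝ) 1) :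
    |Real.exp y / c - Real.exp y' / c'| ≤ 2 * ε := by
  have key : ∀ {a b p q : ℝ}, |a - b| ≤ ε → 0 ≤ p → 0 ≤ q → q ≤ Real.exp ε * p →
      p ≤ Real.exp ε * q → Real.exp a / p ≤ 1 →
      Real.exp a / p - Real.exp b / q ≤ 2 * ε := by
    intro a b p q hab hp hq hqp hpq ha
    rcases hq.eq_or_lt with rfl | hq
    · have : p = 0 := le_antisymm (by simpa using hpq) hp
      subst this
      simp only [div_zero, sub_zero]
      linarith [abs_nonneg (a - b)]
    have hp : 0 < p := by
      rcases hp.eq_or_lt with rfl | hp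
      · simp at hqp; linarith
      · exact hp
    have e2 : Real.exp a / p ≤ Real.exp (2 * ε) * (Real.exp b / q) := by
      rw [← mul_div_assoc, div_le_div_iff₀ hp hq]
      calc Real.exp a * q ≤ (Real.exp ε * Real.exp b) * (Real.exp ε * p) := by
            refine mul_le_mul ?_ hqp hq.le (by positivity)
            rw [← Real.exp_add]; exact Real.exp_le_exp.2 (by linarith [(abs_le.1 hab).2])
        _ = Real.exp (2 * ε) * Real.exp b * p := by rw [two_mul, Real.exp_add]; ring
    have h3 : Real.exp (-(2 * ε)) * (Real.exp a / p) ≤ Real.exp b / q := by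
      rw [Real.exp_neg, inv_mul_le_iff₀ (Real.exp_pos _)]; exact e2
    have h4 := Real.add_one_le_exp (-(2 * ε))
    have h5 : 0 ≤ Real.exp a / p := by positivity
    have h6 : 0 ≤ 2 * ε := by linarith [abs_nonneg (a - b)]
    nlinarith
  rw [abs_le]
  constructor
  · have := key (by rwa [abs_sub_comm]) hc0 hc0' h' h hm'.2
    linarith
  · exact key hε hc0' hc0 h h' hm.2

theorem winMarg_lipschitz {ε : ℝ} (h : ∀ f, |Y f - Y' f| ≤ ε) :
    |winMarg A S Y e - winMarg A S Y' e| ≤ 2 * ε :=
  div_lipschitz (h e) winCond_nonneg winCond_nonneg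
    (winCond_scale (fun f _ _ _ => by linarith [(abs_le.1 (h f)).1]) (by linarith [(abs_le.1 (h e)).1]))
    (winCond_scale (fun f _ _ _ => by linarith [(abs_le.1 (h f)).2]) (by linarith [(abs_le.1 (h e)).2]))
    winMarg_mem winMarg_mem

theorem effCond_nonneg : 0 ≤ effCond A Y e := Real.iSup_nonneg fun _ => winCond_nonneg

theorem effCond_scale {ε : ℝ} (h : ∀ f, |Y f - Y' f| ≤ ε) :
    effCond A Y' e ≤ Real.exp ε * effCond A Y e := by
  have h1 : ∀ S, winCond A S Y' e ≤ Real.exp ε * winCond A S Y e := fun S =>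
    winCond_scale (fun f _ _ _ => by linarith [(abs_le.1 (h f)).1]) (by linarith [(abs_le.1 (h e)).1])
  by_cases hb : BddAbove (Set.range fun S => winCond A S Y e)
  · rw [effCond, effCond, Real.mul_iSup_of_nonneg (Real.exp_pos ε).le]
    refine ciSup_mono ?_ h1
    obtain ⟨B, hB⟩ := hb
    exact ⟨Real.exp ε * B, by
      rintro _ ⟨S, rfl⟩; exact mul_le_mul_of_nonneg_left (hB ⟨S, rfl⟩) (Real.exp_pos ε).le⟩
  · have hb' : ¬ BddAbove (Set.range fun S => winCond A S Y' e) := by
      rintro ⟨B, hB⟩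
      refine hb ⟨Real.exp ε * B, ?_⟩
      rintro _ ⟨S, rfl⟩
      exact (winCond_scale (fun f _ _ _ => by linarith [(abs_le.1 (h f)).2])
        (by linarith [(abs_le.1 (h e)).2])).trans
          (mul_le_mul_of_nonneg_left (hB ⟨S, rfl⟩) (Real.exp_pos ε).le)
    rw [effCond, effCond, Real.iSup_of_not_bddAbove hb, Real.iSup_of_not_bddAbove hb']
    simp

theorem marg_lipschitz {ε : ℝ} (h : ∀ f, |Y f - Y' f| ≤ ε) :
    |marg A Y e - marg A Y' e| ≤ 2 * ε :=
  div_lipschitz (h e) effCond_nonneg effCond_nonneg (effCond_scale h)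
    (effCond_scale fun f => by rw [abs_sub_comm]; exact h f) marg_mem marg_mem

/-! ### Measurability -/

theorem continuous_winCond (S : Finset (Sym2 V)) (e : Sym2 V) :
    Continuous fun p : (Sym2 V → Bool) × (Sym2 V → ℝ) => winCond p.1 S p.2 e := by
  classical
  rw [continuous_iff_continuousAt]
  rintro ⟨A₀, Y₀⟩
  rw [ContinuousAt, Metric.tendsto_nhds]
  intro η hη
  have hlim : Tendsto (fun ε : ℝ => (Real.exp ε - 1) * (Real.exp ε * winCond A₀ S Y₀ e))
      (𝓝 0) (𝓝 0) := by
    have hc : Continuous fun ε : ℝ => (Real.exp ε - 1) * (Real.exp ε * winCond A₀ S Y₀ e) := by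
      fun_prop
    simpa using hc.tendsto 0
  obtain ⟨ε, hε, hεlt⟩ : ∃ ε : ℝ, 0 < ε ∧
      (Real.exp ε - 1) * (Real.exp ε * winCond A₀ S Y₀ e) < η :=
    ((hlim.mono_left (nhdsWithin_le_nhds (s := Set.Ioi 0))).eventually (gt_mem_nhds hη) |>.and
      self_mem_nhdsWithin).exists.imp fun ε h => ⟨h.2, h.1⟩
  have h1 : ∀ᶠ p in 𝓝 (A₀, Y₀), ∀ f ∈ S, p.1 f = A₀ f := by
    refine (Filter.eventually_all_finset S).2 fun f _ => ?_
    have hc : Continuous fun p : (Sym2 V → Bool) × (Sym2 V → ℝ) => p.1 f := by fun_prop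
    have h0 : {A₀ f} ∈ 𝓝 (A₀ f) := (isOpen_discrete _).mem_nhds (Set.mem_singleton _)
    exact (hc.tendsto (A₀, Y₀)).eventually h0
  have h2 : ∀ᶠ p in 𝓝 (A₀, Y₀), ∀ f ∈ insert e S, |p.2 f - Y₀ f| ≤ ε := by
    refine (Filter.eventually_all_finset (insert e S)).2 fun f _ => ?_
    have hc : Continuous fun p : (Sym2 V → Bool) × (Sym2 V → ℝ) => |p.2 f - Y₀ f| := by fun_prop
    exact (hc.tendsto _).eventually (ge_mem_nhds (by simpa using hε))
  filter_upwards [h1, h2] with p hp1 hp2
  have heq : winCond p.1 S p.2 e = winCond A₀ S p.2 e :=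
    winCond_congr hp1 (fun f _ => rfl) rfl
  rw [heq, Real.dist_eq]
  refine lt_of_le_of_lt ?_ hεlt
  have ha : winCond A₀ S p.2 e ≤ Real.exp ε * winCond A₀ S Y₀ e :=
    winCond_scale (fun f hf _ _ => by
      linarith [(abs_le.1 (hp2 f (Finset.mem_insert_of_mem hf))).2])
      (by linarith [(abs_le.1 (hp2 e (Finset.mem_insert_self e S))).2])
  have hb : winCond A₀ S Y₀ e ≤ Real.exp ε * winCond A₀ S p.2 e :=
    winCond_scale (fun f hf _ _ => by
      linarith [(abs_le.1 (hp2 f (Finset.mem_insert_of_mem hf))).1])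
      (by linarith [(abs_le.1 (hp2 e (Finset.mem_insert_self e S))).1])
  have h3 : 1 ≤ Real.exp ε := Real.one_le_exp hε.le
  have h4 : 0 ≤ winCond A₀ S Y₀ e := winCond_nonneg
  have h5 : 0 ≤ (Real.exp ε - 1) * ((Real.exp ε - 1) * winCond A₀ S Y₀ e) :=
    mul_nonneg (by linarith) (mul_nonneg (by linarith) h4)
  rw [abs_le]
  constructor <;> nlinarith

variable [Countable V]

theorem measurable_winCond (S : Finset (Sym2 V)) (e : Sym2 V) :
    Measurable fun p : (Sym2 V → Bool) × (Sym2 V → ℝ) => winCond p.1 S p.2 e :=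
  (continuous_winCond S e).measurable

theorem measurable_marg (e : Sym2 V) :
    Measurable fun p : (Sym2 V → Bool) × (Sym2 V → ℝ) => marg p.1 p.2 e := by
  have h1 : Measurable fun p : (Sym2 V → Bool) × (Sym2 V → ℝ) => effCond p.1 p.2 e :=
    Measurable.iSup fun S => measurable_winCond S e
  unfold marg
  fun_prop

omit [Countable V] in
theorem bddAbove_winCond (hA : LocFin A) (Y : Sym2 V → ℝ) (e : Sym2 V) :
    BddAbove (Set.range fun S => winCond A S Y e) := by
  classical
  induction e using Sym2.ind with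
  | h x y =>
    by_cases hxy : x = y
    · subst hxy
      rcases winCond_cases (A := A) (e := s(x, x)) with ⟨h, -⟩ | h
      · exact ⟨0, by rintro _ ⟨S, rfl⟩; simp [h]⟩
      · have : IsEmpty {φ : V → ℝ // gradSq φ s(x, x) = 1} := ⟨fun φ => by simpa using φ.2⟩
        exact ⟨0, by rintro _ ⟨S, rfl⟩; exact le_of_eq (Real.iInf_of_isEmpty _)⟩
    · let φ : V → ℝ := fun v => if v = y then 1 else 0
      have hφ : gradSq φ s(x, y) = 1 := by simp [φ, hxy]
      refine ⟨Real.exp (Y s(x, y)) + ∑ f ∈ (hA y).toFinset, Real.exp (Y f), ?_⟩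
      rintro _ ⟨S, rfl⟩
      refine (winCond_le φ hφ).trans (add_le_add le_rfl ?_)
      calc ∑ f ∈ S, (if A f = true ∧ f ≠ s(x, y) then Real.exp (Y f) * gradSq φ f else 0)
          ≤ ∑ f ∈ S, (if f ∈ (hA y).toFinset then Real.exp (Y f) else 0) := by
            refine Finset.sum_le_sum fun f _ => ?_
            induction f using Sym2.ind with
            | h a b =>
              simp only [Set.Finite.mem_toFinset, Set.mem_ofPred_eq, gradSq_mk, Sym2.mem_iff]
              by_cases hab : A s(a, b) = true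
              · by_cases h1 : y = a <;> by_cases h2 : y = b <;>
                  simp [φ, hab, h1, h2, Ne.symm, eq_comm] <;> split_ifs <;> simp_all [(Real.exp_pos _).le]
              · simp [hab]
        _ ≤ ∑ f ∈ (hA y).toFinset, Real.exp (Y f) := by
            rw [← Finset.sum_filter]
            refine Finset.sum_le_sum_of_subset_of_nonneg (fun f hf => (Finset.mem_filter.1 hf).2)
              fun f _ _ => (Real.exp_pos _).le

omit [Countable V] in
/-- Finite-window marginals converge to the free marginal, also along bounded perturbations. -/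
theorem tendsto_winMarg (hA : LocFin A) {T : ℕ → Finset (Sym2 V)}
    (hT : ∀ f, A f = true → ∀ᶠ n in atTop, f ∈ T n) {Yn : ℕ → Sym2 V → ℝ} {D : ℝ}
    (hY : ∀ f, Tendsto (fun n => Yn n f) atTop (𝓝 (Y f)))
    (hD : ∀ n f, |Yn n f - Y f| ≤ D) :
    Tendsto (fun n => winMarg A (T n) (Yn n) e) atTop (𝓝 (marg A Y e)) := by
  classical
  rcases winCond_cases (A := A) (e := e) with ⟨h, -⟩ | hpos
  · simp [winMarg, marg, effCond, h]
  have hb := bddAbove_winCond hA Y e
  have hC : Real.exp (Y e) ≤ effCond A Y e := (hpos ∅ Y).trans (le_ciSup hb ∅)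
  have hne : Nonempty {φ : V → ℝ // gradSq φ e = 1} := by
    by_contra h0
    rw [not_nonempty_iff] at h0
    have := hpos ∅ Y
    rw [winCond, Real.iInf_of_isEmpty] at this
    exact absurd this (not_le.2 (Real.exp_pos _))
  suffices hmain : Tendsto (fun n => winCond A (T n) (Yn n) e) atTop (𝓝 (effCond A Y e)) by
    exact ((Real.continuous_exp.tendsto _).comp (hY e)).div hmain
      (ne_of_gt ((Real.exp_pos _).trans_le hC))
  rw [Metric.tendsto_nhds]
  intro r hr
  set C := effCond A Y e with hCdef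
  have hlim : Tendsto (fun η : ℝ => (Real.exp η - 1) * (C + η) + η + Real.exp D * (2 * η))
      (𝓝 0) (𝓝 0) := by
    have hc : Continuous fun η : ℝ =>
        (Real.exp η - 1) * (C + η) + η + Real.exp D * (2 * η) := by fun_prop
    simpa using hc.tendsto 0
  obtain ⟨η, hη, hηlt⟩ : ∃ η : ℝ, 0 < η ∧
      (Real.exp η - 1) * (C + η) + η + Real.exp D * (2 * η) < r :=
    ((hlim.mono_left (nhdsWithin_le_nhds (s := Set.Ioi 0))).eventually (gt_mem_nhds hr) |>.and
      self_mem_nhdsWithin).exists.imp fun η h => ⟨h.2, h.1⟩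
  have hexists : ∃ S₀, C - η < winCond A S₀ Y e := exists_lt_of_lt_ciSup (by
    show C - η < C; linarith)
  obtain ⟨S₀, hS₀⟩ := hexists
  have h1 : ∀ᶠ n in atTop, ∀ f ∈ insert e S₀, |Yn n f - Y f| ≤ η :=
    (Filter.eventually_all_finset _).2 fun f _ =>
      ((hY f).eventually (Metric.closedBall_mem_nhds (Y f) hη)).mono fun n hn => by
        simpa [Real.dist_eq] using hn
  have h2 : ∀ᶠ n in atTop, ∀ f ∈ S₀.filter (fun f => A f = true), f ∈ T n :=
    (Filter.eventually_all_finset _).2 fun f hf => hT f (Finset.mem_filter.1 hf).2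
  filter_upwards [h1, h2] with n hn1 hn2
  have hlow : C - η ≤ Real.exp η * winCond A (T n) (Yn n) e := by
    refine hS₀.le.trans ((winCond_scale (Y := Yn n) (ε := η) (fun f hf _ _ => ?_) ?_).trans
      (mul_le_mul_of_nonneg_left ?_ (Real.exp_pos _).le))
    · linarith [(abs_le.1 (hn1 f (Finset.mem_insert_of_mem hf))).1]
    · linarith [(abs_le.1 (hn1 e (Finset.mem_insert_self e S₀))).1]
    · rw [← winCond_filter]
      exact winCond_mono hn2
  have hupp : winCond A (T n) (Yn n) e ≤ Real.exp η * (C + η) + Real.exp D * (2 * η) := by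
    obtain ⟨φ, hφ⟩ := exists_lt_of_ciInf_lt
      (show winCond A (S₀ ∪ T n) Y e < C + η from
        lt_of_le_of_lt (show winCond A (S₀ ∪ T n) Y e ≤ C from le_ciSup hb _) (by linarith))
    refine (winCond_mono (Finset.subset_union_right (s₁ := S₀))).trans ((winCond_le φ.1 φ.2).trans ?_)
    set g : Sym2 V → ℝ := fun f => if A f = true ∧ f ≠ e then Real.exp (Y f) * gradSq φ.1 f else 0
    have hg : ∀ f, 0 ≤ g f := fun f => by
      simp only [g]; split_ifs
      · exact mul_nonneg (Real.exp_pos _).le (gradSq_nonneg _ _)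
      · exact le_rfl
    have hsplit : winEnergy A (S₀ ∪ T n) Y e φ.1 =
        winEnergy A S₀ Y e φ.1 + ∑ f ∈ T n \ S₀, g f := by
      simp only [winEnergy, g]
      rw [← Finset.union_sdiff_self_eq_union, Finset.sum_union Finset.disjoint_sdiff]
      ring
    have htail : ∑ f ∈ T n \ S₀, g f ≤ 2 * η := by
      have := winCond_le (A := A) (S := S₀) (Y := Y) φ.1 φ.2
      linarith
    have hterm : ∀ (f : Sym2 V) (c : ℝ), Yn n f ≤ Y f + c →
        (if A f = true ∧ f ≠ e then Real.exp (Yn n f) * gradSq φ.1 f else 0) ≤ Real.exp c * g f := by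
      intro f c hfc
      simp only [g]
      split_ifs with hh
      · rw [← mul_assoc, ← Real.exp_add]
        exact mul_le_mul_of_nonneg_right (Real.exp_le_exp.2 (by linarith)) (gradSq_nonneg _ _)
      · simp
    have hS : winEnergy A S₀ (Yn n) e φ.1 ≤ Real.exp η * winEnergy A S₀ Y e φ.1 :=
      winEnergy_scale φ.1
        (fun f hf _ _ => by linarith [(abs_le.1 (hn1 f (Finset.mem_insert_of_mem hf))).2])
        (by linarith [(abs_le.1 (hn1 e (Finset.mem_insert_self e S₀))).2])
    have hsum : 0 ≤ ∑ f ∈ T n \ S₀, g f := Finset.sum_nonneg fun f _ => hg f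
    have hS0 : winEnergy A S₀ Y e φ.1 ≤ C + η := by linarith [hφ]
    calc winEnergy A (S₀ ∪ T n) (Yn n) e φ.1
        = winEnergy A S₀ (Yn n) e φ.1 + ∑ f ∈ T n \ S₀,
            (if A f = true ∧ f ≠ e then Real.exp (Yn n f) * gradSq φ.1 f else 0) := by
          simp only [winEnergy]
          rw [← Finset.union_sdiff_self_eq_union, Finset.sum_union Finset.disjoint_sdiff]
          ring
      _ ≤ Real.exp η * (C + η) + Real.exp D * (2 * η) := by
          refine add_le_add (hS.trans (mul_le_mul_of_nonneg_left hS0 (Real.exp_pos _).le)) ?_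
          refine (Finset.sum_le_sum fun f _ =>
            hterm f D (by linarith [(abs_le.1 (hD n f)).2])).trans ?_
          rw [← Finset.mul_sum]
          exact mul_le_mul_of_nonneg_left htail (Real.exp_pos _).le
  rw [Real.dist_eq]
  refine lt_of_le_of_lt ?_ hηlt
  have he1 : 1 ≤ Real.exp η := Real.one_le_exp hη.le
  have he2 : 0 ≤ Real.exp D * (2 * η) := by positivity
  have hC0 : 0 ≤ C := effCond_nonneg
  rw [abs_le]
  constructor
  · by_cases hw : C ≤ winCond A (T n) (Yn n) e
    · nlinarith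
    · push Not at hw; nlinarith
  · nlinarith

/-! ### Relabelling -/

variable {V' : Type*}

/-- The bijection of unordered pairs induced by a bijection of points. -/
def pairEquiv (σ : V ≃ V') : Sym2 V ≃ Sym2 V' where
  toFun := Sym2.map σ
  invFun := Sym2.map σ.symm
  left_inv z := by simp [Sym2.map_map]
  right_inv z := by simp [Sym2.map_map]

omit [Countable V] in
theorem winCond_map (σ : V ≃ V') (A : Sym2 V' → Bool) (Y : Sym2 V' → ℝ)
    (S : Finset (Sym2 V)) (e : Sym2 V) :
    winCond (A ∘ Sym2.map σ) S (Y ∘ Sym2.map σ) e =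
      winCond A (S.map (pairEquiv σ).toEmbedding) Y (Sym2.map σ e) := by
  classical
  have hinj : Function.Injective (Sym2.map σ) := Sym2.map.injective σ.injective
  let E : {φ : V' → ℝ // gradSq φ (Sym2.map σ e) = 1} ≃ {φ : V → ℝ // gradSq φ e = 1} :=
    (σ.arrowCongr (Equiv.refl ℝ)).symm.subtypeEquiv fun φ => by rw [gradSq_map]; rfl
  refine (Equiv.iInf_congr E fun φ => ?_).symm
  simp only [winEnergy, Function.comp_apply, Finset.sum_map]
  congr 1
  refine Finset.sum_congr rfl fun f _ => ?_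
  have h1 : (pairEquiv σ).toEmbedding f = Sym2.map σ f := rfl
  rw [h1]
  simp only [gradSq_map, hinj.ne_iff, ne_eq]
  rfl

omit [Countable V] in
theorem marg_map (σ : V ≃ V') (A : Sym2 V' → Bool) (Y : Sym2 V' → ℝ) (e : Sym2 V) :
    marg (A ∘ Sym2.map σ) (Y ∘ Sym2.map σ) e = marg A Y (Sym2.map σ e) := by
  have : effCond (A ∘ Sym2.map σ) (Y ∘ Sym2.map σ) e = effCond A Y (Sym2.map σ e) := by
    refine Equiv.iSup_congr (Equiv.finsetCongr (pairEquiv σ)) fun S => ?_
    rw [winCond_map]; rfl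
  simp [marg, this]

end Vale.Agent.P143
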