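import Mathlib

/-!
The exact law of the mean-drift flow in finite dimension.

If `Z s = s • X + N`, with `X` uniform on finitely many states and `N` standard Gaussian, then the
drift `E[X | Z s = z] = tiltMean X s z` transports the law of `Z 0` to that of `Z T`.  The proof
compares the Euler maps of the flow with the increments `Z (s + δ) = Z s + δ • X`: they agree to
first order by the tower property, with an error `O(δ ^ 2)` on test functions with Lipschitz
derivative.
-/

namespace Vale.Agent.P143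

open MeasureTheory ProbabilityTheory Filter Topology Complex

variable {ι Ω : Type*} [Fintype ι] [Fintype Ω]

/-- Weight of the state `ω` after tilting at `(s, z)`; the Gaussian log-likelihood ratio of
observing `z = s • X ω + noise`. -/
noncomputable def tiltWeight (X : Ω → ι → ℝ) (s : ℝ) (z : ι → ℝ) (ω : Ω) : ℝ :=
  Real.exp (∑ i, (s * z i * X ω i - s ^ 2 * X ω i ^ 2 / 2))

/-- Posterior mean. -/
noncomputable def tiltMean (X : Ω → ι → ℝ) (s : ℝ) (z : ι → ℝ) (i : ι) : ℝ :=
  (∑ ω, tiltWeight X s z ω * X ω i) / ∑ ω, tiltWeight X s z ω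

/-- Law of `T • X + N`, with `X` uniform on `Ω` and `N` standard Gaussian. -/
noncomputable def mixLaw (X : Ω → ι → ℝ) (T : ℝ) : Measure (ι → ℝ) :=
  (Fintype.card Ω : ENNReal)⁻¹ •
    ∑ ω, (Measure.pi fun _ : ι => gaussianReal 0 1).map (fun N i => T * X ω i + N i)

/-- Standard Gaussian measure on `ι → ℝ`. -/
noncomputable def stdGauss (ι : Type*) [Fintype ι] : Measure (ι → ℝ) :=
  Measure.pi fun _ : ι => gaussianReal 0 1

instance : IsProbabilityMeasure (stdGauss ι) := by unfold stdGauss; infer_instance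

/-! ### Shifting a Gaussian by tilting -/

theorem setIntegral_tilt (a : ℝ) {s : Set ℝ} (hs : MeasurableSet s) :
    gaussianReal a 1 s =
      ENNReal.ofReal (∫ x in s, Real.exp (a * x - a ^ 2 / 2) ∂gaussianReal 0 1) := by
  rw [gaussianReal_apply_eq_integral a one_ne_zero s]
  congr 1
  rw [← integral_indicator hs, ← integral_indicator hs,
    integral_gaussianReal_eq_integral_smul one_ne_zero]
  refine integral_congr_ae (Eventually.of_forall fun x => ?_)
  by_cases hx : x ∈ s
  · simp only [Set.indicator_of_mem hx, smul_eq_mul, gaussianPDFReal]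
    conv_rhs => rw [mul_assoc, ← Real.exp_add]
    congr 2
    push_cast
    ring
  · simp [Set.indicator_of_notMem hx]

theorem map_shift_stdGauss (a : ι → ℝ) :
    (stdGauss ι).map (fun N i => a i + N i) = (stdGauss ι).withDensity
      (fun z => ENNReal.ofReal (∏ i, Real.exp (a i * z i - a i ^ 2 / 2))) := by
  have hint : ∀ i, Integrable (fun x => Real.exp (a i * x - a i ^ 2 / 2)) (gaussianReal 0 1) :=
    fun i => by
      simp_rw [Real.exp_sub]
      exact (integrable_exp_mul_gaussianReal (a i)).div_const _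
  have h1 : (stdGauss ι).map (fun N i => a i + N i) = Measure.pi fun i => gaussianReal (a i) 1 := by
    have hμ : ∀ i, (gaussianReal (0 : ℝ) 1).map (fun x => a i + x) = gaussianReal (a i) 1 := fun i => by
      rw [gaussianReal_map_const_add]; simp
    haveI : ∀ i, SigmaFinite ((gaussianReal (0 : ℝ) 1).map (fun x => a i + x)) := fun i => by
      rw [hμ]; infer_instance
    rw [stdGauss, Measure.pi_map_pi (f := fun i x => a i + x) fun i => by fun_prop]
    simp_rw [hμ]
  rw [h1]
  refine Measure.pi_eq fun s hs => ?_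
  rw [withDensity_apply _ (MeasurableSet.univ_pi hs), stdGauss, Measure.restrict_pi_pi,
    ← ofReal_integral_eq_lintegral_ofReal,
    integral_fintype_prod_eq_prod (f := fun i x => Real.exp (a i * x - a i ^ 2 / 2)),
    ENNReal.ofReal_prod_of_nonneg]
  · exact Finset.prod_congr rfl fun i _ => (setIntegral_tilt (a i) (hs i)).symm
  · exact fun i _ => integral_nonneg fun x => (Real.exp_pos _).le
  · exact Integrable.fintype_prod (f := fun i x => Real.exp (a i * x - a i ^ 2 / 2))
      fun i => (hint i).mono_measure Measure.restrict_le_self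
  · exact Eventually.of_forall fun z => Finset.prod_nonneg fun i _ => (Real.exp_pos _).le

theorem tiltWeight_eq_prod (X : Ω → ι → ℝ) (s : ℝ) (z : ι → ℝ) (ω : Ω) :
    tiltWeight X s z ω = ∏ i, Real.exp (s * X ω i * z i - (s * X ω i) ^ 2 / 2) := by
  rw [tiltWeight, Real.exp_sum]
  exact Finset.prod_congr rfl fun i _ => by ring_nf

theorem integrable_tiltWeight (X : Ω → ι → ℝ) (s : ℝ) (ω : Ω) :
    Integrable (fun z => tiltWeight X s z ω) (stdGauss ι) := by
  simp_rw [tiltWeight_eq_prod]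
  refine Integrable.fintype_prod (f := fun i x => Real.exp (s * X ω i * x - (s * X ω i) ^ 2 / 2))
    fun i => ?_
  simp_rw [Real.exp_sub]
  exact (integrable_exp_mul_gaussianReal _).div_const _

theorem continuous_tiltWeight (X : Ω → ι → ℝ) (ω : Ω) :
    Continuous fun p : ℝ × (ι → ℝ) => tiltWeight X p.1 p.2 ω := by
  unfold tiltWeight; fun_prop

theorem integral_shift (X : Ω → ι → ℝ) (s : ℝ) (ω : Ω) {G : (ι → ℝ) → ℂ} (hG : Continuous G) :
    ∫ N, G (fun i => s * X ω i + N i) ∂stdGauss ι =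
      ∫ z, (tiltWeight X s z ω : ℂ) * G z ∂stdGauss ι := by
  have hsh : Measurable fun (N : ι → ℝ) (i : ι) => s * X ω i + N i := by fun_prop
  rw [← integral_map (μ := stdGauss ι) hsh.aemeasurable hG.aestronglyMeasurable,
    map_shift_stdGauss,
    integral_withDensity_eq_integral_toReal_smul (by fun_prop)
      (Eventually.of_forall fun z => ENNReal.ofReal_lt_top)]
  refine integral_congr_ae (Eventually.of_forall fun z => ?_)
  simp only [ENNReal.toReal_ofReal (Finset.prod_nonneg fun i _ => (Real.exp_pos _).le)]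
  rw [tiltWeight_eq_prod, Complex.real_smul]

/-! ### The tilted mean -/

theorem tiltWeight_pos (X : Ω → ι → ℝ) (s : ℝ) (z : ι → ℝ) (ω : Ω) : 0 < tiltWeight X s z ω :=
  Real.exp_pos _

theorem sum_tiltWeight_pos [Nonempty Ω] (X : Ω → ι → ℝ) (s : ℝ) (z : ι → ℝ) :
    0 < ∑ ω, tiltWeight X s z ω :=
  Finset.sum_pos (fun ω _ => tiltWeight_pos X s z ω) Finset.univ_nonempty

theorem continuous_tiltMean [Nonempty Ω] (X : Ω → ι → ℝ) (i : ι) :
    Continuous fun p : ℝ × (ι → ℝ) => tiltMean X p.1 p.2 i :=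
  Continuous.div₀
    (continuous_finsetSum _ fun ω _ => (continuous_tiltWeight X ω).mul continuous_const)
    (continuous_finsetSum _ fun ω _ => continuous_tiltWeight X ω)
    fun p => ne_of_gt (sum_tiltWeight_pos X p.1 p.2)

theorem continuous_tiltWeight_right (X : Ω → ι → ℝ) (s : ℝ) (ω : Ω) :
    Continuous fun z : ι → ℝ => tiltWeight X s z ω := by
  unfold tiltWeight; fun_prop

theorem continuous_tiltMean_right [Nonempty Ω] (X : Ω → ι → ℝ) (s : ℝ) (i : ι) :
    Continuous fun z : ι → ℝ => tiltMean X s z i :=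
  Continuous.div₀
    (continuous_finsetSum _ fun ω _ => (continuous_tiltWeight_right X s ω).mul continuous_const)
    (continuous_finsetSum _ fun ω _ => continuous_tiltWeight_right X s ω)
    fun z => ne_of_gt (sum_tiltWeight_pos X s z)

/-- Tilting a probability vector: first order expansion and Lipschitz bound of the mean. -/
theorem tilt_expansion {p x a : Ω → ℝ} (hp : ∀ ω, 0 ≤ p ω) (hp1 : ∑ ω, p ω = 1)
    (hx : ∀ ω, x ω ∈ Set.Icc (0 : ℝ) 1) {α : ℝ} (hα : 0 ≤ α) (ha : ∀ ω, |a ω| ≤ α) :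
    |(∑ ω, p ω * (x ω * Real.exp (a ω))) / (∑ ω, p ω * Real.exp (a ω)) - (∑ ω, p ω * x ω) -
        ((∑ ω, p ω * (x ω * a ω)) - (∑ ω, p ω * x ω) * ∑ ω, p ω * a ω)| ≤ 18 * α ^ 2 ∧
      |(∑ ω, p ω * (x ω * Real.exp (a ω))) / (∑ ω, p ω * Real.exp (a ω)) - (∑ ω, p ω * x ω)| ≤
        2 * α := by
  have havg : ∀ (f : Ω → ℝ) (b : ℝ), (∀ ω, |f ω| ≤ b) → |∑ ω, p ω * f ω| ≤ b := by
    intro f b hf
    refine (Finset.abs_sum_le_sum_abs _ _).trans ?_
    calc ∑ ω, |p ω * f ω| ≤ ∑ ω, p ω * b := Finset.sum_le_sum fun ω _ => by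
          rw [abs_mul, abs_of_nonneg (hp ω)]; exact mul_le_mul_of_nonneg_left (hf ω) (hp ω)
      _ = b := by rw [← Finset.sum_mul, hp1, one_mul]
  have hxa : ∀ ω, |x ω| ≤ 1 := fun ω => abs_le.2 ⟨by linarith [(hx ω).1], (hx ω).2⟩
  set m := ∑ ω, p ω * x ω with hm
  set Num := ∑ ω, p ω * (x ω * Real.exp (a ω)) with hNum
  set Q := ∑ ω, p ω * Real.exp (a ω) with hQ
  set A := ∑ ω, p ω * a ω with hA
  set P := ∑ ω, p ω * (x ω * a ω) with hP
  have hQlow : Real.exp (-α) ≤ Q := by
    calc Real.exp (-α) = ∑ ω, p ω * Real.exp (-α) := by rw [← Finset.sum_mul, hp1, one_mul]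
      _ ≤ Q := Finset.sum_le_sum fun ω _ => mul_le_mul_of_nonneg_left
          (Real.exp_le_exp.2 (by linarith [(abs_le.1 (ha ω)).1])) (hp ω)
  have hQup : Q ≤ Real.exp α := by
    calc Q ≤ ∑ ω, p ω * Real.exp α := Finset.sum_le_sum fun ω _ => mul_le_mul_of_nonneg_left
          (Real.exp_le_exp.2 (abs_le.1 (ha ω)).2) (hp ω)
      _ = Real.exp α := by rw [← Finset.sum_mul, hp1, one_mul]
  have hQ0 : 0 < Q := (Real.exp_pos _).trans_le hQlow
  have hNlow : Real.exp (-α) * m ≤ Num := by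
    rw [hm, Finset.mul_sum]
    refine Finset.sum_le_sum fun ω _ => ?_
    have := Real.exp_le_exp.2 (show -α ≤ a ω by linarith [(abs_le.1 (ha ω)).1])
    nlinarith [mul_nonneg (hp ω) (hx ω).1]
  have hNup : Num ≤ Real.exp α * m := by
    rw [hm, Finset.mul_sum]
    refine Finset.sum_le_sum fun ω _ => ?_
    have := Real.exp_le_exp.2 (abs_le.1 (ha ω)).2
    nlinarith [mul_nonneg (hp ω) (hx ω).1]
  have hN0 : 0 ≤ Num :=
    Finset.sum_nonneg fun ω _ => mul_nonneg (hp ω) (mul_nonneg (hx ω).1 (Real.exp_pos _).le)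
  have hNQ : Num ≤ Q := Finset.sum_le_sum fun ω _ => mul_le_mul_of_nonneg_left
    (mul_le_of_le_one_left (Real.exp_pos _).le (hx ω).2) (hp ω)
  have hm0 : 0 ≤ m := Finset.sum_nonneg fun ω _ => mul_nonneg (hp ω) (hx ω).1
  have hm1 : m ≤ 1 := (le_abs_self _).trans (havg x 1 hxa)
  have hv0 : 0 ≤ Num / Q := div_nonneg hN0 hQ0.le
  have hv1 : Num / Q ≤ 1 := (div_le_one hQ0).2 hNQ
  have hexp : 1 - 2 * α ≤ Real.exp (-α) * Real.exp (-α) := by
    rw [← Real.exp_add]; linarith [Real.add_one_le_exp (-α + -α)]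
  have hlip : |Num / Q - m| ≤ 2 * α := by
    have hone : Real.exp (-α) * Real.exp α = 1 := by rw [← Real.exp_add]; simp
    have hEn : 0 ≤ Real.exp (-α) := (Real.exp_pos _).le
    have h2 : Real.exp (-α) * Real.exp (-α) * m ≤ Num / Q := by
      rw [le_div_iff₀ hQ0]
      calc Real.exp (-α) * Real.exp (-α) * m * Q
          ≤ Real.exp (-α) * Real.exp (-α) * m * Real.exp α :=
            mul_le_mul_of_nonneg_left hQup (by positivity)
        _ = Real.exp (-α) * m * (Real.exp (-α) * Real.exp α) := by ring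
        _ ≤ Num := by rw [hone, mul_one]; exact hNlow
    have h3 : Real.exp (-α) * Real.exp (-α) * (Num / Q) ≤ m := by
      rw [← mul_div_assoc, div_le_iff₀ hQ0]
      calc Real.exp (-α) * Real.exp (-α) * Num
          ≤ Real.exp (-α) * Real.exp (-α) * (Real.exp α * m) :=
            mul_le_mul_of_nonneg_left hNup (by positivity)
        _ = Real.exp (-α) * m * (Real.exp (-α) * Real.exp α) := by ring
        _ ≤ m * Q := by rw [hone, mul_one, mul_comm]; exact mul_le_mul_of_nonneg_left hQlow hm0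
    rw [abs_le]
    constructor <;> nlinarith
  refine ⟨?_, hlip⟩
  have hAb : |A| ≤ α := havg a α ha
  have hPb : |P| ≤ α := havg _ α fun ω => by
    rw [abs_mul]; exact (mul_le_of_le_one_left (abs_nonneg _) (hxa ω)).trans (ha ω)
  have hmA : |m * A| ≤ α := by
    rw [abs_mul, abs_of_nonneg hm0]; exact (mul_le_of_le_one_left (abs_nonneg _) hm1).trans hAb
  have hC : |P - m * A| ≤ 2 * α := (abs_sub _ _).trans (by linarith)
  rcases le_or_gt α 1 with hα1 | hα1
  · set r : Ω → ℝ := fun ω => Real.exp (a ω) - 1 - a ω with hr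
    have hrb : ∀ ω, |r ω| ≤ α ^ 2 := fun ω =>
      (Real.abs_exp_sub_one_sub_id_le ((ha ω).trans hα1)).trans
        (by nlinarith [sq_abs (a ω), abs_nonneg (a ω), ha ω])
    have hRb : |∑ ω, p ω * r ω| ≤ α ^ 2 := havg r _ hrb
    have hR'b : |∑ ω, p ω * (x ω * r ω)| ≤ α ^ 2 := havg _ _ fun ω => by
      rw [abs_mul]; exact (mul_le_of_le_one_left (abs_nonneg _) (hxa ω)).trans (hrb ω)
    have hQeq : Q = 1 + A + ∑ ω, p ω * r ω := by
      rw [hQ, hA, ← hp1, ← Finset.sum_add_distrib, ← Finset.sum_add_distrib]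
      exact Finset.sum_congr rfl fun ω _ => by rw [hr]; ring
    have hNeq : Num = m + P + ∑ ω, p ω * (x ω * r ω) := by
      rw [hNum, hm, hP, ← Finset.sum_add_distrib, ← Finset.sum_add_distrib]
      exact Finset.sum_congr rfl fun ω _ => by rw [hr]; ring
    set R := ∑ ω, p ω * r ω
    set R' := ∑ ω, p ω * (x ω * r ω)
    have hid : Num / Q - m - (P - m * A) = (R' - m * R - (P - m * A) * (A + R)) / Q := by
      rw [eq_div_iff hQ0.ne', sub_mul, sub_mul, div_mul_cancel₀ _ hQ0.ne']
      rw [hQeq, hNeq]; ring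
    have hQ3 : 1 / 3 ≤ Q := by
      have h3 : Real.exp (-1) ≤ Q := le_trans (Real.exp_le_exp.2 (by linarith)) hQlow
      have h4 : (1 : ℝ) / 3 ≤ Real.exp (-1) := by
        rw [Real.exp_neg, one_div]
        exact inv_anti₀ (Real.exp_pos 1) (by linarith [Real.exp_one_lt_d9])
      linarith
    rw [hid, abs_div, abs_of_pos hQ0, div_le_iff₀ hQ0]
    have h1 : |R' - m * R| ≤ 2 * α ^ 2 := (abs_sub _ _).trans (by
      rw [abs_mul, abs_of_nonneg hm0]
      linarith [mul_le_of_le_one_left (abs_nonneg R) hm1])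
    have h2 : |(P - m * A) * (A + R)| ≤ 2 * α * (2 * α) := by
      rw [abs_mul]
      refine mul_le_mul hC ((abs_add_le _ _).trans ?_) (abs_nonneg _) (by linarith)
      nlinarith
    refine (abs_sub _ _).trans ?_
    nlinarith [sq_nonneg α]
  · have h1 : |Num / Q - m| ≤ 1 := abs_le.2 ⟨by linarith, by linarith⟩
    refine (abs_sub _ _).trans ?_
    nlinarith

/-- Covariance of two coordinates under the tilted law, times `s`. -/
noncomputable def tiltJac (X : Ω → ι → ℝ) (s : ℝ) (z : ι → ℝ) (i j : ι) : ℝ :=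
  s * ((∑ ω, tiltWeight X s z ω * (X ω i * X ω j)) / (∑ ω, tiltWeight X s z ω) -
    tiltMean X s z i * tiltMean X s z j)

variable {X : Ω → ι → ℝ}

theorem abs_div_sum_le_one [Nonempty Ω] (s : ℝ) (z : ι → ℝ) {f : Ω → ℝ}
    (hf : ∀ ω, f ω ∈ Set.Icc (0 : ℝ) 1) :
    (∑ ω, tiltWeight X s z ω * f ω) / (∑ ω, tiltWeight X s z ω) ∈ Set.Icc (0 : ℝ) 1 :=
  ⟨div_nonneg (Finset.sum_nonneg fun ω _ => mul_nonneg (tiltWeight_pos X s z ω).le (hf ω).1)
    (sum_tiltWeight_pos X s z).le, (div_le_one (sum_tiltWeight_pos X s z)).2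
      (Finset.sum_le_sum fun ω _ => mul_le_of_le_one_right (tiltWeight_pos X s z ω).le (hf ω).2)⟩

theorem tiltMean_mem [Nonempty Ω] (hX : ∀ ω i, X ω i ∈ Set.Icc (0 : ℝ) 1) (s : ℝ) (z : ι → ℝ)
    (i : ι) : tiltMean X s z i ∈ Set.Icc (0 : ℝ) 1 :=
  abs_div_sum_le_one s z fun ω => hX ω i

theorem abs_tiltJac_le [Nonempty Ω] (hX : ∀ ω i, X ω i ∈ Set.Icc (0 : ℝ) 1) {s T : ℝ}
    (hs : 0 ≤ s) (hsT : s ≤ T) (z : ι → ℝ) (i j : ι) : |tiltJac X s z i j| ≤ 2 * T := by
  have h1 := abs_div_sum_le_one (X := X) s z (f := fun ω => X ω i * X ω j) fun ω =>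
    ⟨mul_nonneg (hX ω i).1 (hX ω j).1, mul_le_one₀ (hX ω i).2 (hX ω j).1 (hX ω j).2⟩
  have h2 := tiltMean_mem hX s z i
  have h3 := tiltMean_mem hX s z j
  have h4 : 0 ≤ tiltMean X s z i * tiltMean X s z j := mul_nonneg h2.1 h3.1
  have h5 : tiltMean X s z i * tiltMean X s z j ≤ 1 := mul_le_one₀ h2.2 h3.1 h3.2
  rw [tiltJac, abs_mul, abs_of_nonneg hs]
  calc s * _ ≤ T * 2 :=
        mul_le_mul hsT (abs_le.2 ⟨by linarith [h1.1], by linarith [h1.2]⟩) (abs_nonneg _)
          (hs.trans hsT)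
    _ = 2 * T := mul_comm _ _

theorem tiltMean_expansion [Nonempty Ω] (hX : ∀ ω i, X ω i ∈ Set.Icc (0 : ℝ) 1) {s T : ℝ}
    (hs : 0 ≤ s) (hsT : s ≤ T) (z h : ι → ℝ) (i : ι) :
    |tiltMean X s (z + h) i - tiltMean X s z i - ∑ j, tiltJac X s z i j * h j| ≤
        18 * (T * Fintype.card ι) ^ 2 * ‖h‖ ^ 2 ∧
      |tiltMean X s (z + h) i - tiltMean X s z i| ≤ 2 * (T * Fintype.card ι) * ‖h‖ := by
  classical
  set W := ∑ ω, tiltWeight X s z ω with hW
  have hWpos : 0 < W := sum_tiltWeight_pos X s z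
  set p : Ω → ℝ := fun ω => tiltWeight X s z ω / W with hp
  set a : Ω → ℝ := fun ω => s * ∑ j, X ω j * h j with ha
  have hab : ∀ ω, |a ω| ≤ T * Fintype.card ι * ‖h‖ := by
    intro ω
    rw [ha, abs_mul, abs_of_nonneg hs, mul_assoc T]
    refine mul_le_mul hsT ((Finset.abs_sum_le_sum_abs _ _).trans ?_) (abs_nonneg _)
      (hs.trans hsT)
    refine (Finset.sum_le_sum (g := fun _ => ‖h‖) fun j _ => ?_).trans_eq (by simp)
    rw [abs_mul, abs_of_nonneg (hX ω j).1]
    exact (mul_le_of_le_one_left (abs_nonneg _) (hX ω j).2).trans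
      (by simpa using norm_le_pi_norm h j)
  have key := tilt_expansion (p := p) (x := fun ω => X ω i) (a := a)
    (fun ω => div_nonneg (tiltWeight_pos X s z ω).le hWpos.le)
    (by rw [hp, ← Finset.sum_div, ← hW, div_self hWpos.ne']) (fun ω => hX ω i)
    (by have := hs.trans hsT; positivity) hab
  have hshift : ∀ ω, tiltWeight X s (z + h) ω = W * (p ω * Real.exp (a ω)) := by
    intro ω
    simp only [hp, ha]
    rw [← mul_assoc, mul_div_cancel₀ _ hWpos.ne', tiltWeight, tiltWeight, ← Real.exp_add,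
      Finset.mul_sum, ← Finset.sum_add_distrib]
    congr 1
    exact Finset.sum_congr rfl fun j _ => by simp only [Pi.add_apply]; ring
  have hm1 : tiltMean X s (z + h) i =
      (∑ ω, p ω * (X ω i * Real.exp (a ω))) / ∑ ω, p ω * Real.exp (a ω) := by
    simp only [tiltMean, hshift]
    rw [← Finset.mul_sum, Finset.sum_congr rfl (fun ω _ =>
      show W * (p ω * Real.exp (a ω)) * X ω i = W * (p ω * (X ω i * Real.exp (a ω))) by ring),
      ← Finset.mul_sum, mul_div_mul_left _ _ hWpos.ne']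
  have hm0 : ∀ k, tiltMean X s z k = ∑ ω, p ω * X ω k := by
    intro k
    simp only [tiltMean, hp, ← hW, Finset.sum_div, div_mul_eq_mul_div]
  have hjac : ∑ j, tiltJac X s z i j * h j =
      (∑ ω, p ω * (X ω i * a ω)) - (∑ ω, p ω * X ω i) * ∑ ω, p ω * a ω := by
    have e1 : ∀ j, (∑ ω, tiltWeight X s z ω * (X ω i * X ω j)) / W =
        ∑ ω, p ω * (X ω i * X ω j) := fun j => by
      simp only [hp, Finset.sum_div, div_mul_eq_mul_div]
    have eA : ∑ ω, p ω * (X ω i * a ω) =
        ∑ j, s * (∑ ω, p ω * (X ω i * X ω j)) * h j := by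
      simp only [ha, Finset.mul_sum, Finset.sum_mul]
      rw [Finset.sum_comm]
      exact Finset.sum_congr rfl fun j _ => Finset.sum_congr rfl fun ω _ => by ring
    have eB : ∑ ω, p ω * a ω = ∑ j, s * (∑ ω, p ω * X ω j) * h j := by
      simp only [ha, Finset.mul_sum, Finset.sum_mul]
      rw [Finset.sum_comm]
      exact Finset.sum_congr rfl fun j _ => Finset.sum_congr rfl fun ω _ => by ring
    rw [eA, eB, Finset.mul_sum, ← Finset.sum_sub_distrib]
    refine Finset.sum_congr rfl fun j _ => ?_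
    simp only [tiltJac, ← hW, e1, hm0]
    ring
  rw [hm1, hm0, hjac]
  refine ⟨key.1.trans_eq ?_, key.2.trans_eq ?_⟩ <;> ring

/-! ### Test functions and Euler steps -/

/-- Test functions: bounded by one, continuous, with a first order expansion whose coefficients
are bounded by `L` and whose remainder is at most `M ‖h‖ ^ 2`. -/
def IsTest (L M : ℝ) (g : (ι → ℝ) → ℂ) : Prop :=
  Continuous g ∧ (∀ z, ‖g z‖ ≤ 1) ∧ ∃ a : (ι → ℝ) → ι → ℂ, Continuous a ∧
    (∀ z, ∑ i, ‖a z i‖ ≤ L) ∧ ∀ z h, ‖g (z + h) - g z - ∑ i, a z i * (h i : ℂ)‖ ≤ M * ‖h‖ ^ 2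

/-- One Euler step. -/
noncomputable def eulerStep (X : Ω → ι → ℝ) (δ s : ℝ) (z : ι → ℝ) : ι → ℝ :=
  fun i => z i + δ * tiltMean X s z i

theorem continuous_eulerStep [Nonempty Ω] (X : Ω → ι → ℝ) (δ s : ℝ) :
    Continuous (eulerStep X δ s) :=
  continuous_pi fun i => (continuous_apply i).add
    (continuous_const.mul (continuous_tiltMean_right X s i))

/-- Lipschitz constant of the drift up to time `T`. -/
noncomputable def lipB (ι : Type*) [Fintype ι] (T : ℝ) : ℝ := 2 * (T * Fintype.card ι)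

/-- Second order constant of the drift up to time `T`. -/
noncomputable def curvC (ι : Type*) [Fintype ι] (T : ℝ) : ℝ := 18 * (T * Fintype.card ι) ^ 2

theorem eulerStep_dist [Nonempty Ω] (hX : ∀ ω i, X ω i ∈ Set.Icc (0 : ℝ) 1) {δ s T : ℝ}
    (hδ : 0 ≤ δ) (hs : 0 ≤ s) (hsT : s ≤ T) (z h : ι → ℝ) :
    ‖eulerStep X δ s (z + h) - eulerStep X δ s z‖ ≤ (1 + δ * lipB ι T) * ‖h‖ := by
  have hT : 0 ≤ T := hs.trans hsT
  have hb : 0 ≤ lipB ι T := by unfold lipB; positivity
  refine (pi_norm_le_iff_of_nonneg (by positivity)).2 fun i => ?_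
  have h1 := (tiltMean_expansion hX hs hsT z h i).2
  have h2 : |h i| ≤ ‖h‖ := by simpa using norm_le_pi_norm h i
  simp only [eulerStep, Pi.sub_apply, Pi.add_apply, Real.norm_eq_abs]
  rw [show z i + h i + δ * tiltMean X s (z + h) i - (z i + δ * tiltMean X s z i) =
    h i + δ * (tiltMean X s (z + h) i - tiltMean X s z i) by ring]
  refine (abs_add_le _ _).trans ?_
  rw [abs_mul, abs_of_nonneg hδ, add_mul, one_mul, mul_assoc]
  exact add_le_add h2 (mul_le_mul_of_nonneg_left h1 hδ)

theorem IsTest.comp_eulerStep [Nonempty Ω] (hX : ∀ ω i, X ω i ∈ Set.Icc (0 : ℝ) 1)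
    {δ s T L M : ℝ} (hδ : 0 ≤ δ) (hs : 0 ≤ s) (hsT : s ≤ T) (hM : 0 ≤ M) {g : (ι → ℝ) → ℂ}
    (hg : IsTest L M g) :
    IsTest (L * (1 + δ * lipB ι T))
      (M * (1 + δ * lipB ι T) ^ 2 + L * δ * curvC ι T) (g ∘ eulerStep X δ s) := by
  obtain ⟨hc, hbd, a, hac, haL, hexp⟩ := hg
  have hv : ∀ i, Continuous fun z => tiltMean X s z i := continuous_tiltMean_right X s
  have hw : ∀ ω, Continuous fun z => tiltWeight X s z ω := continuous_tiltWeight_right X s
  have hJ : ∀ i j, Continuous fun z => tiltJac X s z i j := fun i j =>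
    continuous_const.mul ((Continuous.div₀
      (continuous_finsetSum _ fun ω _ => (hw ω).mul continuous_const)
      (continuous_finsetSum _ fun ω _ => hw ω)
      fun z => ne_of_gt (sum_tiltWeight_pos X s z)).sub ((hv i).mul (hv j)))
  have haT : ∀ i, Continuous fun z => a (eulerStep X δ s z) i := fun i =>
    (continuous_apply i).comp (hac.comp (continuous_eulerStep X δ s))
  refine ⟨hc.comp (continuous_eulerStep X δ s), fun z => hbd _,
    fun z j => a (eulerStep X δ s z) j +
      (δ : ℂ) * ∑ i, a (eulerStep X δ s z) i * (tiltJac X s z i j : ℂ), ?_, fun z => ?_, ?_⟩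
  · exact continuous_pi fun j => (haT j).add (continuous_const.mul
      (continuous_finsetSum _ fun i _ => (haT i).mul (continuous_ofReal.comp (hJ i j))))
  · refine (Finset.sum_le_sum fun j _ => norm_add_le _ _).trans ?_
    rw [Finset.sum_add_distrib, mul_add, mul_one]
    refine add_le_add (haL _) ?_
    simp only [norm_mul, Complex.norm_real, Real.norm_eq_abs, abs_of_nonneg hδ, ← Finset.mul_sum]
    rw [mul_left_comm L δ]
    refine mul_le_mul_of_nonneg_left ?_ hδ
    refine (Finset.sum_le_sum fun j _ => norm_sum_le _ _).trans ?_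
    rw [Finset.sum_comm]
    refine (Finset.sum_le_sum (g := fun i => ‖a (eulerStep X δ s z) i‖ * lipB ι T)
      fun i _ => ?_).trans ?_
    · simp only [norm_mul, Complex.norm_real, Real.norm_eq_abs, ← Finset.mul_sum]
      refine mul_le_mul_of_nonneg_left ?_ (norm_nonneg _)
      refine (Finset.sum_le_sum (g := fun _ => 2 * T)
        fun j _ => abs_tiltJac_le hX hs hsT z i j).trans_eq ?_
      simp [lipB]; ring
    · rw [← Finset.sum_mul]
      have hT : 0 ≤ T := hs.trans hsT
      exact mul_le_mul_of_nonneg_right (haL _) (by unfold lipB; positivity)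
  · intro z h
    set y := eulerStep X δ s z
    set d := eulerStep X δ s (z + h) - y with hd
    have h1 := hexp y d
    have h2 : ‖d‖ ≤ (1 + δ * lipB ι T) * ‖h‖ := eulerStep_dist hX hδ hs hsT z h
    set rem : ι → ℝ := fun i =>
      tiltMean X s (z + h) i - tiltMean X s z i - ∑ j, tiltJac X s z i j * h j with hrem
    have hsplit : ∑ j, (a y j + (δ : ℂ) * ∑ i, a y i * (tiltJac X s z i j : ℂ)) * (h j : ℂ) =
        (∑ i, a y i * (d i : ℂ)) - (δ : ℂ) * ∑ i, a y i * (rem i : ℂ) := by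
      simp only [hd, hrem, y, eulerStep, Pi.sub_apply, Pi.add_apply, add_mul, Finset.mul_sum,
        Finset.sum_mul, Finset.sum_add_distrib]
      rw [Finset.sum_comm (γ := ι), ← Finset.sum_add_distrib, ← Finset.sum_sub_distrib]
      refine Finset.sum_congr rfl fun i _ => ?_
      push_cast
      simp only [mul_sub, Finset.mul_sum, mul_assoc]
      ring
    have hyd : y + d = eulerStep X δ s (z + h) := by rw [hd]; abel
    rw [hyd] at h1
    simp only [Function.comp_apply]
    rw [hsplit, sub_sub_eq_add_sub, add_sub_right_comm]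
    refine (norm_add_le _ _).trans ?_
    rw [add_mul]
    refine add_le_add (h1.trans ?_) ?_
    · calc M * ‖d‖ ^ 2 ≤ M * ((1 + δ * lipB ι T) * ‖h‖) ^ 2 :=
            mul_le_mul_of_nonneg_left (pow_le_pow_left₀ (norm_nonneg _) h2 2) hM
        _ = _ := by ring
    · rw [norm_mul, Complex.norm_real, Real.norm_eq_abs, abs_of_nonneg hδ,
        show L * δ * curvC ι T * ‖h‖ ^ 2 = δ * (L * (curvC ι T * ‖h‖ ^ 2)) by ring]
      refine mul_le_mul_of_nonneg_left ((norm_sum_le _ _).trans ?_) hδ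
      refine (Finset.sum_le_sum (g := fun i => ‖a y i‖ * (curvC ι T * ‖h‖ ^ 2))
        fun i _ => ?_).trans ?_
      · rw [norm_mul, Complex.norm_real, Real.norm_eq_abs]
        exact mul_le_mul_of_nonneg_left (tiltMean_expansion hX hs hsT z h i).1 (norm_nonneg _)
      · rw [← Finset.sum_mul]
        exact mul_le_mul_of_nonneg_right (haL _) (by unfold curvC; positivity)

/-- The Euler scheme with step `δ` from time `0`. -/
noncomputable def euler (X : Ω → ι → ℝ) (δ : ℝ) : ℕ → (ι → ℝ) → ι → ℝ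
  | 0 => id
  | k + 1 => fun N => eulerStep X δ (k * δ) (euler X δ k N)

theorem continuous_euler [Nonempty Ω] (X : Ω → ι → ℝ) (δ : ℝ) :
    ∀ k, Continuous (euler X δ k)
  | 0 => continuous_id
  | k + 1 => (continuous_eulerStep X δ _).comp (continuous_euler X δ k)

theorem integrable_bounded {G : (ι → ℝ) → ℂ} (hG : Continuous G) {B : ℝ} (hB : ∀ z, ‖G z‖ ≤ B) :
    Integrable G (stdGauss ι) :=
  Integrable.of_bound hG.aestronglyMeasurable B (Eventually.of_forall hB)

/-- Expectation of `g (s • X + N)`, summed over the states. -/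
noncomputable def mixSum (X : Ω → ι → ℝ) (s : ℝ) (g : (ι → ℝ) → ℂ) : ℂ :=
  ∑ ω, ∫ N, g (fun i => s * X ω i + N i) ∂stdGauss ι

/-- Tower property. -/
theorem mixSum_tower [Nonempty Ω] (hX : ∀ ω i, X ω i ∈ Set.Icc (0 : ℝ) 1) (s : ℝ) {L : ℝ}
    {a : (ι → ℝ) → ι → ℂ} (hac : Continuous a) (haL : ∀ z, ∑ i, ‖a z i‖ ≤ L) :
    ∑ ω, ∫ N, ∑ i, a (fun i => s * X ω i + N i) i * (X ω i : ℂ) ∂stdGauss ι =
      mixSum X s fun z => ∑ i, a z i * (tiltMean X s z i : ℂ) := by
  have hb : ∀ (u : ι → ℝ), (∀ i, u i ∈ Set.Icc (0 : ℝ) 1) → ∀ z,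
      ‖∑ i, a z i * (u i : ℂ)‖ ≤ L := fun u hu z =>
    (norm_sum_le _ _).trans ((Finset.sum_le_sum fun i _ => by
      rw [norm_mul, Complex.norm_real, Real.norm_eq_abs, abs_of_nonneg (hu i).1]
      exact mul_le_of_le_one_right (norm_nonneg _) (hu i).2).trans (haL z))
  have hai : ∀ i, Continuous fun z => a z i := fun i => (continuous_apply i).comp hac
  have hv : ∀ i, Continuous fun z => tiltMean X s z i := continuous_tiltMean_right X s
  have hcu : ∀ ω, Continuous fun z => ∑ i, a z i * (X ω i : ℂ) := fun ω =>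
    continuous_finsetSum _ fun i _ => (hai i).mul continuous_const
  have hcv : Continuous fun z => ∑ i, a z i * (tiltMean X s z i : ℂ) :=
    continuous_finsetSum _ fun i _ => (hai i).mul (continuous_ofReal.comp (hv i))
  simp only [mixSum, integral_shift X s _ hcv]
  rw [Finset.sum_congr rfl fun ω _ => integral_shift X s ω (hcu ω)]
  rw [← integral_finsetSum, ← integral_finsetSum]
  · refine integral_congr_ae (Eventually.of_forall fun z => ?_)
    have hW := sum_tiltWeight_pos X s z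
    simp only [← Finset.sum_mul]
    rw [Finset.mul_sum]
    simp only [Finset.mul_sum]
    rw [Finset.sum_comm]
    refine Finset.sum_congr rfl fun i _ => ?_
    have : ∑ ω, tiltWeight X s z ω * X ω i = (∑ ω, tiltWeight X s z ω) * tiltMean X s z i := by
      rw [tiltMean, mul_div_cancel₀ _ hW.ne']
    calc ∑ ω, (tiltWeight X s z ω : ℂ) * (a z i * (X ω i : ℂ))
        = a z i * ((∑ ω, tiltWeight X s z ω * X ω i : ℝ) : ℂ) := by
          push_cast
          rw [Finset.mul_sum]
          exact Finset.sum_congr rfl fun ω _ => by ring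
      _ = _ := by rw [this]; push_cast; ring
  · exact fun ω _ => ((integrable_tiltWeight X s ω).ofReal).mul_bdd hcv.aestronglyMeasurable
      (Eventually.of_forall fun z => hb _ (fun i => tiltMean_mem hX s z i) z)
  · exact fun ω _ => ((integrable_tiltWeight X s ω).ofReal).mul_bdd (hcu ω).aestronglyMeasurable
      (Eventually.of_forall fun z => hb _ (hX ω) z)

/-- One step: an Euler step agrees with the exact increment up to `O(δ ^ 2)`. -/
theorem mixSum_step [Nonempty Ω] (hX : ∀ ω i, X ω i ∈ Set.Icc (0 : ℝ) 1) {δ L M : ℝ}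
    (hδ : 0 ≤ δ) (hM : 0 ≤ M) {g : (ι → ℝ) → ℂ} (hg : IsTest L M g) (s : ℝ) :
    ‖mixSum X s (g ∘ eulerStep X δ s) - mixSum X (s + δ) g‖ ≤
      Fintype.card Ω * (2 * M * δ ^ 2) := by
  obtain ⟨hc, hbd, a, hac, haL, hexp⟩ := hg
  set Z : Ω → (ι → ℝ) → ι → ℝ := fun ω N i => s * X ω i + N i
  set v : (ι → ℝ) → ι → ℝ := fun z i => tiltMean X s z i
  have hvc : Continuous v := continuous_pi fun i => continuous_tiltMean_right X s i
  have hZc : ∀ ω, Continuous (Z ω) := fun ω => by fun_prop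
  set rem : Ω → (ι → ℝ) → (ι → ℝ) → ℂ := fun ω u N =>
    g (Z ω N + δ • u) - g (Z ω N) - (δ : ℂ) * ∑ i, a (Z ω N) i * (u i : ℂ)
  have hrem : ∀ ω u N, (∀ i, u i ∈ Set.Icc (0 : ℝ) 1) → ‖rem ω u N‖ ≤ M * δ ^ 2 := by
    intro ω u N hu
    have h1 := hexp (Z ω N) (δ • u)
    have h2 : ‖δ • u‖ ≤ δ := (pi_norm_le_iff_of_nonneg hδ).2 fun i => by
      simp [abs_of_nonneg hδ, abs_of_nonneg (hu i).1]
      exact mul_le_of_le_one_right hδ (hu i).2
    refine le_trans (le_of_eq ?_) (h1.trans (mul_le_mul_of_nonneg_left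
      (pow_le_pow_left₀ (norm_nonneg _) h2 2) hM))
    congr 1
    simp only [rem, Pi.smul_apply, smul_eq_mul, Finset.mul_sum]
    push_cast
    congr 1
    exact Finset.sum_congr rfl fun i _ => by ring
  have hai : ∀ i, Continuous fun z => a z i := fun i => (continuous_apply i).comp hac
  have hA : ∀ ω (u : (ι → ℝ) → ι → ℝ), Continuous u → (∀ N i, u N i ∈ Set.Icc (0 : ℝ) 1) →
      Integrable (fun N => ∑ i, a (Z ω N) i * (u N i : ℂ)) (stdGauss ι) := fun ω u hu hub =>
    integrable_bounded (continuous_finsetSum _ fun i _ => ((hai i).comp (hZc ω)).mul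
      (continuous_ofReal.comp ((continuous_apply i).comp hu))) (B := L) fun N =>
      (norm_sum_le _ _).trans ((Finset.sum_le_sum fun i _ => by
        rw [norm_mul, Complex.norm_real, Real.norm_eq_abs, abs_of_nonneg (hub N i).1]
        exact mul_le_of_le_one_right (norm_nonneg _) (hub N i).2).trans (haL _))
  have hgZ : ∀ ω (u : (ι → ℝ) → ι → ℝ), Continuous u →
      Integrable (fun N => g (Z ω N + δ • u N)) (stdGauss ι) := fun ω u hu =>
    integrable_bounded (hc.comp ((hZc ω).add (hu.const_smul δ))) fun N => hbd _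
  have hR : ∀ ω (u : (ι → ℝ) → ι → ℝ), Continuous u → (∀ N i, u N i ∈ Set.Icc (0 : ℝ) 1) →
      ∫ N, g (Z ω N + δ • u N) ∂stdGauss ι = (∫ N, rem ω (u N) N ∂stdGauss ι) +
        (∫ N, g (Z ω N) ∂stdGauss ι) + (δ : ℂ) * ∫ N, ∑ i, a (Z ω N) i * (u N i : ℂ) ∂stdGauss ι := by
    intro ω u hu hub
    simp only [rem]
    rw [integral_sub, integral_sub, integral_const_mul]
    · ring
    · exact hgZ ω u hu
    · exact integrable_bounded (hc.comp (hZc ω)) fun N => hbd _
    · exact (hgZ ω u hu).sub (integrable_bounded (hc.comp (hZc ω)) fun N => hbd _)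
    · exact (hA ω u hu hub).const_mul _
  have e1 : mixSum X s (g ∘ eulerStep X δ s) = ∑ ω, ∫ N, g (Z ω N + δ • v (Z ω N)) ∂stdGauss ι :=
    rfl
  have e2 : mixSum X (s + δ) g = ∑ ω, ∫ N, g (Z ω N + δ • X ω) ∂stdGauss ι := by
    simp only [mixSum, Z]
    refine Finset.sum_congr rfl fun ω _ => integral_congr_ae (Eventually.of_forall fun N => ?_)
    simp only
    congr 1
    funext i
    simp only [Pi.add_apply, Pi.smul_apply, smul_eq_mul]
    ring
  have hvb : ∀ ω N i, v (Z ω N) i ∈ Set.Icc (0 : ℝ) 1 := fun ω N i => tiltMean_mem hX s _ i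
  rw [e1, e2, Finset.sum_congr rfl fun ω _ =>
    hR ω (fun N => v (Z ω N)) (hvc.comp (hZc ω)) (hvb ω),
    Finset.sum_congr rfl fun ω _ => hR ω (fun _ => X ω) continuous_const (fun _ => hX ω)]
  simp only [Finset.sum_add_distrib, ← Finset.mul_sum]
  rw [mixSum_tower hX s hac haL]
  simp only [mixSum, v, Z]
  rw [add_sub_add_right_eq_sub, add_sub_add_right_eq_sub, ← Finset.sum_sub_distrib]
  refine (norm_sum_le _ _).trans ((Finset.sum_le_sum (g := fun _ => 2 * M * δ ^ 2)
    fun ω _ => ?_).trans_eq (by simp))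
  refine (norm_sub_le _ _).trans ?_
  have hI : ∀ f : (ι → ℝ) → ℂ, (∀ N, ‖f N‖ ≤ M * δ ^ 2) →
      ‖∫ N, f N ∂stdGauss ι‖ ≤ M * δ ^ 2 := fun f hf => by
    simpa using norm_integral_le_of_norm_le_const (μ := stdGauss ι) (Eventually.of_forall hf)
  have i1 := hI _ fun N => hrem ω (v (Z ω N)) N (hvb ω N)
  have i2 := hI _ fun N => hrem ω (X ω) N (hX ω)
  simp only [v, Z] at i1 i2
  linarith

/-- Accumulated error of the Euler scheme. -/
theorem euler_error [Nonempty Ω] (hX : ∀ ω i, X ω i ∈ Set.Icc (0 : ℝ) 1) {δ T : ℝ} (hδ : 0 ≤ δ)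
    (hT : 0 ≤ T) :
    ∀ k : ℕ, (k : ℝ) * δ ≤ T → ∀ (L M : ℝ), 0 ≤ L → 0 ≤ M → ∀ g : (ι → ℝ) → ℂ, IsTest L M g →
      ‖(Fintype.card Ω : ℂ) * (∫ N, g (euler X δ k N) ∂stdGauss ι) - mixSum X (k * δ) g‖ ≤
        Fintype.card Ω * (2 * δ ^ 2 * k * ((1 + δ * lipB ι T) ^ 2) ^ k *
          (M + L * curvC ι T * δ * k)) := by
  have hb : 0 ≤ lipB ι T := by unfold lipB; positivity
  have hc : 0 ≤ curvC ι T := by unfold curvC; positivity
  set q := 1 + δ * lipB ι T with hq
  have hq1 : 1 ≤ q := by have := mul_nonneg hδ hb; linarith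
  intro k
  induction k with
  | zero =>
    intro _ L M _ _ g _
    simp [mixSum, euler]
  | succ k ih =>
    intro hk L M hL hM g hg
    have hkT : (k : ℝ) * δ ≤ T :=
      le_trans (mul_le_mul_of_nonneg_right (by push_cast; linarith) hδ) hk
    have hs : 0 ≤ (k : ℝ) * δ := by positivity
    have h1 := ih hkT (L * q) (M * q ^ 2 + L * δ * curvC ι T) (by positivity) (by positivity) _
      (hg.comp_eulerStep hX hδ hs hkT hM)
    have h2 := mixSum_step hX hδ hM hg ((k : ℝ) * δ)
    have e : ((k + 1 : ℕ) : ℝ) * δ = k * δ + δ := by push_cast; ring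
    rw [e]
    simp only [Function.comp_apply] at h1
    simp only [euler]
    refine (norm_sub_le_norm_sub_add_norm_sub _ (mixSum X (k * δ) (g ∘ eulerStep X δ (k * δ))) _).trans ?_
    refine (add_le_add h1 h2).trans ?_
    rw [← mul_add]
    refine mul_le_mul_of_nonneg_left ?_ (by positivity)
    have hq2 : 1 ≤ q ^ 2 := one_le_pow₀ hq1
    have hρk : 1 ≤ (q ^ 2) ^ k := one_le_pow₀ hq2
    have hρ : (q ^ 2) ^ (k + 1) = (q ^ 2) ^ k * q ^ 2 := pow_succ _ _
    have hqq : q ≤ q ^ 2 := by nlinarith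
    have hmain : M * q ^ 2 + L * δ * curvC ι T + L * q * curvC ι T * δ * k ≤
        q ^ 2 * (M + L * curvC ι T * δ * (k + 1)) := by
      have a1 : L * δ * curvC ι T ≤ q ^ 2 * (L * δ * curvC ι T) :=
        le_mul_of_one_le_left (by positivity) hq2
      have a2 : q * (L * curvC ι T * δ * k) ≤ q ^ 2 * (L * curvC ι T * δ * k) :=
        mul_le_mul_of_nonneg_right hqq (by positivity)
      linarith
    have hlast : M ≤ (q ^ 2) ^ (k + 1) * (M + L * curvC ι T * δ * (k + 1)) :=
      le_trans (le_add_of_nonneg_right (by positivity))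
        (le_mul_of_one_le_left (by positivity) (one_le_pow₀ hq2))
    push_cast
    calc 2 * δ ^ 2 * k * (q ^ 2) ^ k *
          (M * q ^ 2 + L * δ * curvC ι T + L * q * curvC ι T * δ * k) + 2 * M * δ ^ 2
        ≤ 2 * δ ^ 2 * k * (q ^ 2) ^ k * (q ^ 2 * (M + L * curvC ι T * δ * (k + 1))) +
          2 * δ ^ 2 * ((q ^ 2) ^ (k + 1) * (M + L * curvC ι T * δ * (k + 1))) := by
          refine add_le_add (mul_le_mul_of_nonneg_left hmain (by positivity)) ?_
          rw [mul_comm (2 * M) _, ← mul_assoc, mul_comm (δ ^ 2) 2]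
          exact mul_le_mul_of_nonneg_left hlast (by positivity)
      _ = _ := by rw [hρ]; ring

/-- Euler schemes converge to continuous solutions. -/
theorem tendsto_euler [Nonempty Ω] (hX : ∀ ω i, X ω i ∈ Set.Icc (0 : ℝ) 1) {T : ℝ} (hT : 0 ≤ T)
    (N : ι → ℝ) (z : ℝ → ι → ℝ) (hcont : ∀ i, ContinuousOn (fun s => z s i) (Set.Icc 0 T))
    (heq : ∀ i, ∀ s ∈ Set.Icc 0 T,
      z s i = N i + ∫ τ in Set.Ioc 0 s, tiltMean X τ (z τ) i) :
    Tendsto (fun K : ℕ => euler X (T / K) K N) atTop (𝓝 (z T)) := by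
  set f : ℝ → ι → ℝ := fun τ i => tiltMean X τ (z τ) i
  have hz : ContinuousOn (fun τ : ℝ => (τ, z τ)) (Set.Icc 0 T) :=
    continuousOn_id.prodMk (continuousOn_pi.2 hcont)
  have hf : ContinuousOn f (Set.Icc 0 T) := continuousOn_pi.2 fun i =>
    Continuous.comp_continuousOn (g := fun p : ℝ × (ι → ℝ) => tiltMean X p.1 p.2 i)
      (f := fun τ : ℝ => (τ, z τ)) (continuous_tiltMean X i) hz
  have hu := isCompact_Icc.uniformContinuousOn_of_continuous hf
  rw [Metric.tendsto_nhds]
  intro ε hε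
  have hb : 0 ≤ lipB ι T := by unfold lipB; positivity
  set η := ε / 2 / ((T + 1) * Real.exp (T * lipB ι T)) with hη
  have hη0 : 0 < η := by positivity
  obtain ⟨r, hr, hunif⟩ := Metric.uniformContinuousOn_iff.1 hu η hη0
  have hsmall : ∀ᶠ K : ℕ in atTop, T / K < r :=
    (tendsto_const_div_atTop_nhds_zero_nat T).eventually (gt_mem_nhds hr)
  filter_upwards [hsmall, eventually_gt_atTop 0] with K hK hK0
  set δ := T / K with hδdef
  have hδ : 0 ≤ δ := by positivity
  have hKδ : (K : ℝ) * δ = T := mul_div_cancel₀ _ (by positivity)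
  have key : ∀ k ≤ K, ‖euler X δ k N - z (k * δ)‖ ≤ η * (k * δ) * (1 + δ * lipB ι T) ^ k := by
    intro k hk
    induction k with
    | zero =>
      have : z 0 = N := funext fun i => by simpa using heq i 0 ⟨le_rfl, hT⟩
      simp [euler, this]
    | succ k ih =>
      have ih := ih (by omega)
      have hk' : ((k + 1 : ℕ) : ℝ) * δ ≤ T := by
        rw [← hKδ]; exact mul_le_mul_of_nonneg_right (by exact_mod_cast hk) hδ
      push_cast at hk'
      have ht0 : 0 ≤ (k : ℝ) * δ := by positivity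
      set t := (k : ℝ) * δ with ht
      have ht1 : t + δ ≤ T := by rw [ht]; linarith
      have hq1 : 1 ≤ 1 + δ * lipB ι T := le_add_of_nonneg_right (mul_nonneg hδ hb)
      have hinc : ∀ i, z (t + δ) i - z t i = ∫ τ in Set.Ioc t (t + δ), f τ i := by
        intro i
        have hint : ∀ a b, 0 ≤ a → b ≤ T → IntegrableOn (fun τ => f τ i) (Set.Ioc a b) := by
          intro a b ha hb'
          exact ((continuousOn_pi.1 hf i).mono (Set.Icc_subset_Icc ha hb')).integrableOn_Icc.mono_set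
            Set.Ioc_subset_Icc_self
        rw [heq i (t + δ) ⟨by linarith, ht1⟩, heq i t ⟨ht0, by linarith⟩,
          ← Set.Ioc_union_Ioc_eq_Ioc ht0 (by linarith : t ≤ t + δ),
          setIntegral_union (Set.Ioc_disjoint_Ioc_of_le le_rfl) measurableSet_Ioc
            (hint _ _ le_rfl (by linarith)) (hint _ _ ht0 ht1)]
        ring
      have hloc : ‖(fun i => z (t + δ) i - z t i - δ * f t i)‖ ≤ η * δ := by
        refine (pi_norm_le_iff_of_nonneg (by positivity)).2 fun i => ?_
        rw [hinc i, show δ * f t i = ∫ _ in Set.Ioc t (t + δ), f t i by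
          simp [Real.volume_real_Ioc_of_le, hδ, mul_comm]]
        rw [← integral_sub (((continuousOn_pi.1 hf i).mono
            (Set.Icc_subset_Icc ht0 ht1)).integrableOn_Icc.mono_set Set.Ioc_subset_Icc_self)
          (integrableOn_const (by simp))]
        refine (norm_setIntegral_le_of_norm_le_const (C := η) measure_Ioc_lt_top
          fun τ hτ => ?_).trans_eq (by simp [Real.volume_real_Ioc_of_le, hδ])
        have hd := hunif τ ⟨by linarith [hτ.1], by linarith [hτ.2]⟩ t ⟨ht0, by linarith⟩ (by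
          rw [Real.dist_eq, abs_of_nonneg (by linarith [hτ.1])]; linarith [hτ.2])
        rw [dist_eq_norm] at hd
        exact ((norm_le_pi_norm (f τ - f t) i).trans hd.le)
      have hstep : euler X δ (k + 1) N - z ((k + 1 : ℕ) * δ) =
          (eulerStep X δ t (z t + (euler X δ k N - z t)) - eulerStep X δ t (z t)) -
            fun i => z (t + δ) i - z t i - δ * f t i := by
        funext i
        have e : ((k + 1 : ℕ) : ℝ) * δ = t + δ := by rw [ht]; push_cast; ring
        simp only [e, euler, ← ht, Pi.sub_apply, add_sub_cancel, eulerStep, f]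
        ring
      rw [hstep]
      refine (norm_sub_le _ _).trans ?_
      refine (add_le_add ((eulerStep_dist hX hδ ht0 (show t ≤ T by linarith) _ _).trans
        (mul_le_mul_of_nonneg_left ih (by linarith))) hloc).trans ?_
      have e1 : (1 : ℝ) ≤ (1 + δ * lipB ι T) ^ (k + 1) := one_le_pow₀ hq1
      have e2 : 0 ≤ η * δ := by positivity
      rw [pow_succ] at e1 ⊢
      push_cast
      rw [ht]
      nlinarith [mul_le_mul_of_nonneg_left e1 e2]
  have h := key K le_rfl
  rw [hKδ] at h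
  rw [dist_eq_norm]
  refine lt_of_le_of_lt h ?_
  have hpow : (1 + δ * lipB ι T) ^ K ≤ Real.exp (T * lipB ι T) := by
    calc (1 + δ * lipB ι T) ^ K ≤ Real.exp (δ * lipB ι T) ^ K :=
          pow_le_pow_left₀ (by positivity) (by linarith [Real.add_one_le_exp (δ * lipB ι T)]) K
      _ = _ := by rw [← Real.exp_nat_mul, ← mul_assoc, hKδ]
  calc η * T * (1 + δ * lipB ι T) ^ K ≤ η * (T + 1) * Real.exp (T * lipB ι T) :=
        mul_le_mul (by nlinarith) hpow (by positivity) (by positivity)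
    _ = ε / 2 := by rw [hη]; field_simp
    _ < ε := half_lt_self hε

/-- The exponential test functions. -/
theorem isTest_exp (c : ι → ℝ) :
    IsTest (∑ i, |c i|) (3 * (∑ i, |c i|) ^ 2)
      (fun z : ι → ℝ => Complex.exp ((∑ i, c i * z i : ℝ) * I)) := by
  refine ⟨by fun_prop, fun z => le_of_eq (norm_exp_ofReal_mul_I _),
    fun z i => Complex.exp ((∑ i, c i * z i : ℝ) * I) * (c i * I), by fun_prop, fun z => ?_,
    fun z h => ?_⟩
  · simp [norm_exp_ofReal_mul_I, Real.norm_eq_abs, -Complex.ofReal_sum]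
  · set E := Complex.exp ((∑ i, c i * z i : ℝ) * I) with hE
    set θ := ∑ i, c i * h i with hθ
    have e1 : Complex.exp ((∑ i, c i * (z + h) i : ℝ) * I) = E * Complex.exp (θ * I) := by
      rw [hE, ← Complex.exp_add, ← add_mul, ← Complex.ofReal_add, hθ, ← Finset.sum_add_distrib]
      simp [mul_add]
    have e2 : ∑ i, E * ((c i : ℂ) * I) * (h i : ℂ) = E * (θ * I) := by
      rw [hθ]; push_cast
      rw [Finset.sum_mul, Finset.mul_sum]
      exact Finset.sum_congr rfl fun i _ => by ring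
    simp only
    rw [e1, e2, show E * Complex.exp (θ * I) - E - E * (θ * I) =
      E * (Complex.exp (θ * I) - 1 - θ * I) by ring, norm_mul, hE, norm_exp_ofReal_mul_I, one_mul]
    have hθb : |θ| ≤ (∑ i, |c i|) * ‖h‖ := by
      rw [hθ, Finset.sum_mul]
      refine (Finset.abs_sum_le_sum_abs _ _).trans (Finset.sum_le_sum fun i _ => ?_)
      rw [abs_mul]
      exact mul_le_mul_of_nonneg_left (by simpa using norm_le_pi_norm h i) (abs_nonneg _)
    have hn : ‖(θ : ℂ) * I‖ = |θ| := by simp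
    have h3 : 3 * θ ^ 2 ≤ 3 * (∑ i, |c i|) ^ 2 * ‖h‖ ^ 2 := by
      rw [← sq_abs θ]
      nlinarith [pow_le_pow_left₀ (abs_nonneg θ) hθb 2]
    refine le_trans ?_ h3
    rcases le_or_gt |θ| 1 with hle | hgt
    · refine (norm_exp_sub_one_sub_id_le (by rw [hn]; exact hle)).trans ?_
      rw [hn, sq_abs]; nlinarith
    · refine (norm_sub_le _ _).trans ((add_le_add (norm_sub_le _ _) le_rfl).trans ?_)
      rw [norm_exp_ofReal_mul_I, hn, norm_one, ← sq_abs θ]
      nlinarith

/-- A measurable family of solutions of `z' = tiltMean X s z` started from standard Gaussian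
noise has the law `mixLaw X T` at time `T`. -/
theorem flow_law [Nonempty Ω] (X : Ω → ι → ℝ) (hX : ∀ ω i, X ω i ∈ Set.Icc (0 : ℝ) 1)
    {T : ℝ} (hT : 0 ≤ T) (z : (ι → ℝ) → ℝ → ι → ℝ)
    (hmeas : Measurable fun N => z N T)
    (hcont : ∀ N i, ContinuousOn (fun s => z N s i) (Set.Icc 0 T))
    (heq : ∀ N i, ∀ s ∈ Set.Icc 0 T,
      z N s i = N i + ∫ τ in Set.Ioc 0 s, tiltMean X τ (z N τ) i) :
    (Measure.pi fun _ : ι => gaussianReal 0 1).map (fun N => z N T) = mixLaw X T := by
  classical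
  have hcard : (Fintype.card Ω : ℂ) ≠ 0 := by exact_mod_cast Fintype.card_ne_zero
  haveI : IsFiniteMeasure (mixLaw X T) := by
    unfold mixLaw
    refine Measure.smul_finite _ ?_
    simp [Fintype.card_ne_zero]
  change (stdGauss ι).map (fun N => z N T) = mixLaw X T
  haveI : IsFiniteMeasure ((stdGauss ι).map fun N => z N T) := inferInstance
  refine Measure.ext_of_charFunDual (funext fun Λ => ?_)
  set c : ι → ℝ := fun i => Λ (Pi.single i 1)
  have hΛ : ∀ y : ι → ℝ, Λ y = ∑ i, c i * y i := fun y => by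
    conv_lhs => rw [← Finset.univ_sum_single y, map_sum]
    refine Finset.sum_congr rfl fun i _ => ?_
    rw [show Pi.single i (y i) = y i • Pi.single i (1 : ℝ) by
      rw [← Pi.single_smul]; simp, map_smul, smul_eq_mul, mul_comm]
  set g : (ι → ℝ) → ℂ := fun y => Complex.exp ((∑ i, c i * y i : ℝ) * I) with hgdef
  have hgc : Continuous g := by fun_prop
  have hfun : (fun y : ι → ℝ => Complex.exp ((Λ y : ℂ) * I)) = g := funext fun y => by
    rw [hgdef]; simp only [hΛ]
  have hgb : ∀ y, ‖g y‖ ≤ 1 := fun y => le_of_eq (norm_exp_ofReal_mul_I _)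
  rw [charFunDual_apply, charFunDual_apply, hfun,
    integral_map hmeas.aemeasurable hgc.aestronglyMeasurable]
  have hmix : ∫ y, g y ∂mixLaw X T = (Fintype.card Ω : ℂ)⁻¹ * mixSum X T g := by
    rw [mixLaw, integral_smul_measure, integral_finsetSum_measure]
    · simp only [mixSum, stdGauss, Complex.real_smul, ENNReal.toReal_inv, ENNReal.toReal_natCast]
      push_cast
      congr 1
      exact Finset.sum_congr rfl fun ω _ => integral_map (Measurable.aemeasurable (by fun_prop)) hgc.aestronglyMeasurable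
    · exact fun ω _ => Integrable.of_bound hgc.aestronglyMeasurable 1 (Eventually.of_forall hgb)
  rw [hmix]
  have hlim1 : Tendsto (fun K : ℕ => ∫ N, g (euler X (T / K) K N) ∂stdGauss ι) atTop
      (𝓝 (∫ N, g (z N T) ∂stdGauss ι)) :=
    tendsto_integral_of_dominated_convergence (fun _ => (1 : ℝ))
      (fun K => (hgc.comp (continuous_euler X _ K)).aestronglyMeasurable) (integrable_const _)
      (fun K => Eventually.of_forall fun N => hgb _)
      (Eventually.of_forall fun N =>
        (hgc.tendsto _).comp (tendsto_euler hX hT N (z N) (hcont N) (heq N)))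
  refine tendsto_nhds_unique hlim1 ?_
  rw [tendsto_iff_norm_sub_tendsto_zero]
  set L := ∑ i, |c i|
  set M := 3 * L ^ 2 with hMdef
  have hL : 0 ≤ L := Finset.sum_nonneg fun i _ => abs_nonneg _
  have hbound : ∀ᶠ K : ℕ in atTop,
      ‖(∫ N, g (euler X (T / K) K N) ∂stdGauss ι) - (Fintype.card Ω : ℂ)⁻¹ * mixSum X T g‖ ≤
        2 * T * Real.exp (2 * (T * lipB ι T)) * (M + L * curvC ι T * T) * (T / K) := by
    filter_upwards [eventually_gt_atTop 0] with K hK
    have hδ : 0 ≤ T / (K : ℝ) := by positivity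
    have hKδ : (K : ℝ) * (T / K) = T := mul_div_cancel₀ _ (by positivity)
    have h := euler_error hX hδ hT K hKδ.le L M hL (by positivity) g (isTest_exp c)
    rw [hKδ] at h
    have hpos : (0 : ℝ) < Fintype.card Ω := by exact_mod_cast Fintype.card_pos
    have e : (∫ N, g (euler X (T / K) K N) ∂stdGauss ι) - (Fintype.card Ω : ℂ)⁻¹ * mixSum X T g =
        (Fintype.card Ω : ℂ)⁻¹ *
          ((Fintype.card Ω : ℂ) * (∫ N, g (euler X (T / K) K N) ∂stdGauss ι) - mixSum X T g) := by
      rw [mul_sub, ← mul_assoc, inv_mul_cancel₀ hcard, one_mul]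
    rw [e, norm_mul, norm_inv, Complex.norm_natCast, inv_mul_le_iff₀ hpos]
    refine h.trans (mul_le_mul_of_nonneg_left ?_ hpos.le)
    have hc : 0 ≤ curvC ι T := by unfold curvC; positivity
    have hpow : ((1 + T / K * lipB ι T) ^ 2) ^ K ≤ Real.exp (2 * (T * lipB ι T)) := by
      have hb : 0 ≤ lipB ι T := by unfold lipB; positivity
      calc ((1 + T / K * lipB ι T) ^ 2) ^ K ≤ (Real.exp (T / K * lipB ι T) ^ 2) ^ K := by
            refine pow_le_pow_left₀ (by positivity) (pow_le_pow_left₀ (by positivity) ?_ 2) K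
            linarith [Real.add_one_le_exp (T / K * lipB ι T)]
        _ = _ := by
          rw [← Real.exp_nat_mul, ← Real.exp_nat_mul]
          congr 1
          calc (K : ℝ) * ((2 : ℕ) * (T / K * lipB ι T)) = 2 * (((K : ℝ) * (T / K)) * lipB ι T) := by
                push_cast; ring
            _ = _ := by rw [hKδ]
    calc 2 * (T / K) ^ 2 * K * ((1 + T / K * lipB ι T) ^ 2) ^ K *
          (M + L * curvC ι T * (T / K) * K)
        = 2 * ((K : ℝ) * (T / K)) * ((1 + T / K * lipB ι T) ^ 2) ^ K *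
          (M + L * curvC ι T * ((K : ℝ) * (T / K))) * (T / K) := by ring
      _ ≤ _ := by
        rw [hKδ]
        gcongr
  refine squeeze_zero' (Eventually.of_forall fun _ => norm_nonneg _) hbound ?_
  simpa using (tendsto_const_div_atTop_nhds_zero_nat T).const_mul
    (2 * T * Real.exp (2 * (T * lipB ι T)) * (M + L * curvC ι T * T))

end Vale.Agent.P143
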