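import Mathlib

/-!
Picard solution of the mean-drift flow `z' = M (s * z - s ^ 2 / 2)` on a field over an arbitrary
index set, for a bounded drift which is Lipschitz in the supremum norm.
-/

namespace Vale.Agent.P143

open MeasureTheory Filter Topology

variable {ι : Type*}

/-- The argument of the drift at time `τ`. -/
noncomputable def drive (τ : ℝ) (z : ι → ℝ) : ι → ℝ := fun f => τ * z f - τ ^ 2 / 2

/-- Picard iterates. -/
noncomputable def picard (M : (ι → ℝ) → ι → ℝ) (N : ι → ℝ) : ℕ → ℝ → ι → ℝ
  | 0 => fun _ => N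
  | j + 1 => fun s e => N e + ∫ τ in Set.Ioc 0 s, M (drive τ (picard M N j τ)) e

/-- The limit of the Picard iterates. -/
noncomputable def flow (M : (ι → ℝ) → ι → ℝ) (N : ι → ℝ) (s : ℝ) (e : ι) : ℝ :=
  N e + ∑' j, (picard M N (j + 1) s e - picard M N j s e)

/-- A drift with values in `[0, 1]`, measurable, and `2`-Lipschitz in the supremum norm. -/
structure IsDrift (M : (ι → ℝ) → ι → ℝ) : Prop where
  mem : ∀ Y e, M Y e ∈ Set.Icc (0 : ℝ) 1
  meas : ∀ e, Measurable fun Y => M Y e
  lip : ∀ Y Y' e ε, (∀ f, |Y f - Y' f| ≤ ε) → |M Y e - M Y' e| ≤ 2 * ε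

theorem measurable_picard {α : Type*} [MeasurableSpace α] {M : α → (ι → ℝ) → ι → ℝ}
    (hM : ∀ e, Measurable fun p : α × (ι → ℝ) => M p.1 p.2 e) {N : α → ι → ℝ}
    (hN : ∀ e, Measurable fun a => N a e) (j : ℕ) :
    ∀ e, Measurable fun p : α × ℝ => picard (M p.1) (N p.1) j p.2 e := by
  induction j with
  | zero => exact fun e => (hN e).comp measurable_fst
  | succ j ih =>
    intro e
    simp only [picard]
    refine ((hN e).comp measurable_fst).add ?_
    simp_rw [← integral_indicator measurableSet_Ioc]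
    refine StronglyMeasurable.measurable (StronglyMeasurable.integral_prod_right ?_)
    refine Measurable.stronglyMeasurable ?_
    have hd : Measurable fun q : (α × ℝ) × ℝ =>
        M q.1.1 (drive q.2 (picard (M q.1.1) (N q.1.1) j q.2)) e := by
      refine (hM e).comp ((measurable_fst.comp measurable_fst).prodMk
        (measurable_pi_lambda _ fun f => ?_))
      have h1 : Measurable fun q : (α × ℝ) × ℝ => ((q.1.1, q.2) : α × ℝ) :=
        (measurable_fst.comp measurable_fst).prodMk measurable_snd
      have := (ih f).comp h1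
      simp only [Function.comp_def] at this
      exact (measurable_snd.mul this).sub ((measurable_snd.pow_const 2).div_const 2)
    have hs : MeasurableSet {q : (α × ℝ) × ℝ | 0 < q.2 ∧ q.2 ≤ q.1.2} :=
      (measurableSet_lt measurable_const measurable_snd).inter
        (measurableSet_le measurable_snd (measurable_snd.comp measurable_fst))
    exact hd.indicator hs

theorem measurable_flow {α : Type*} [MeasurableSpace α] {M : α → (ι → ℝ) → ι → ℝ}
    (hM : ∀ e, Measurable fun p : α × (ι → ℝ) => M p.1 p.2 e) {N : α → ι → ℝ}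
    (hN : ∀ e, Measurable fun a => N a e) (s : ℝ) (e : ι) :
    Measurable fun a => flow (M a) (N a) s e := by
  unfold flow
  refine (hN e).add (Measurable.tsum fun j => ?_)
  exact ((measurable_picard hM hN (j + 1) e).comp (measurable_id.prodMk measurable_const)).sub
    ((measurable_picard hM hN j e).comp (measurable_id.prodMk measurable_const))

variable {M : (ι → ℝ) → ι → ℝ} {N : ι → ℝ}

theorem IsDrift.measurable_along (hM : IsDrift M) (j : ℕ) (e : ι) :
    Measurable fun τ => M (drive τ (picard M N j τ)) e := by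
  have h := measurable_picard (α := Unit) (M := fun _ => M) (N := fun _ => N)
    (fun f => (hM.meas f).comp measurable_snd) (fun f => measurable_const) j
  refine (hM.meas e).comp (measurable_pi_lambda _ fun f => ?_)
  have h' : Measurable fun τ : ℝ => picard M N j τ f :=
    (h f).comp (measurable_const.prodMk measurable_id : Measurable fun τ : ℝ => ((), τ))
  simp only [drive]
  fun_prop

theorem IsDrift.abs_le_one (hM : IsDrift M) (Y : ι → ℝ) (e : ι) : |M Y e| ≤ 1 :=
  abs_le.2 ⟨by linarith [(hM.mem Y e).1], (hM.mem Y e).2⟩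

theorem integrableOn_of_bounded {g : ℝ → ℝ} (hg : Measurable g) (h : ∀ τ, |g τ| ≤ 1)
    (a b : ℝ) : IntegrableOn g (Set.Ioc a b) :=
  Integrable.of_bound hg.aestronglyMeasurable 1 (Eventually.of_forall h)

theorem setIntegral_mem {g : ℝ → ℝ} (h : ∀ τ, g τ ∈ Set.Icc (0 : ℝ) 1) (hg : Measurable g)
    {a b : ℝ} (hab : a ≤ b) : ∫ τ in Set.Ioc a b, g τ ∈ Set.Icc 0 (b - a) := by
  refine ⟨setIntegral_nonneg measurableSet_Ioc fun τ _ => (h τ).1, ?_⟩
  have h1 : ∫ τ in Set.Ioc a b, g τ ≤ ∫ _ in Set.Ioc a b, (1 : ℝ) :=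
    setIntegral_mono (integrableOn_of_bounded hg
      (fun τ => abs_le.2 ⟨by linarith [(h τ).1], (h τ).2⟩) a b)
      (integrableOn_const (by simp)) (fun τ => (h τ).2)
  simpa [Real.volume_real_Ioc_of_le hab] using h1

theorem IsDrift.picard_succ_diff (hM : IsDrift M) (j : ℕ) (e : ι) {s t : ℝ} (hs : 0 ≤ s)
    (hst : s ≤ t) :
    picard M N (j + 1) t e - picard M N (j + 1) s e ∈ Set.Icc 0 (t - s) := by
  have hg := hM.measurable_along (N := N) j e
  have hb : ∀ τ, |M (drive τ (picard M N j τ)) e| ≤ 1 := fun τ => hM.abs_le_one _ _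
  simp only [picard]
  rw [← Set.Ioc_union_Ioc_eq_Ioc hs hst,
    setIntegral_union (Set.Ioc_disjoint_Ioc_of_le le_rfl) measurableSet_Ioc
      (integrableOn_of_bounded hg hb _ _) (integrableOn_of_bounded hg hb _ _)]
  simpa using setIntegral_mem (fun τ => hM.mem _ e) hg hst

theorem IsDrift.picard_bound (hM : IsDrift M) (j : ℕ) (e : ι) {s : ℝ} (hs : 0 ≤ s) :
    |picard M N j s e - N e| ≤ s := by
  cases j with
  | zero => simp [picard, hs]
  | succ j =>
    have := hM.picard_succ_diff (N := N) j e le_rfl hs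
    simp only [picard, Set.Ioc_self, setIntegral_empty, add_zero, Set.mem_Icc, sub_zero,
      add_sub_cancel_left] at this ⊢
    exact abs_le.2 ⟨by linarith, this.2⟩

theorem IsDrift.picard_step (hM : IsDrift M) (j : ℕ) :
    ∀ (e : ι) (s : ℝ), 0 ≤ s →
      |picard M N (j + 1) s e - picard M N j s e| ≤ s * ((s ^ 2) ^ j / j.factorial) := by
  induction j with
  | zero =>
    intro e s hs
    simpa [picard] using hM.picard_bound (N := N) 1 e hs
  | succ j ih =>
    intro e s hs
    rw [show picard M N (j + 1 + 1) s e = N e + ∫ τ in Set.Ioc 0 s,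
        M (drive τ (picard M N (j + 1) τ)) e from rfl,
      show picard M N (j + 1) s e = N e + ∫ τ in Set.Ioc 0 s,
        M (drive τ (picard M N j τ)) e from rfl, add_sub_add_left_eq_sub,
      ← integral_sub (integrableOn_of_bounded (hM.measurable_along _ e)
          (fun τ => hM.abs_le_one _ _) _ _)
        (integrableOn_of_bounded (hM.measurable_along _ e) (fun τ => hM.abs_le_one _ _) _ _)]
    have hpt : ∀ τ ∈ Set.Ioc (0 : ℝ) s,
        ‖M (drive τ (picard M N (j + 1) τ)) e - M (drive τ (picard M N j τ)) e‖ ≤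
          2 / j.factorial * τ ^ (2 * j + 2) := by
      intro τ hτ
      refine (hM.lip _ _ e (τ * (τ * ((τ ^ 2) ^ j / j.factorial))) fun f => ?_).trans_eq ?_
      · simp only [drive]
        rw [show τ * picard M N (j + 1) τ f - τ ^ 2 / 2 - (τ * picard M N j τ f - τ ^ 2 / 2) =
          τ * (picard M N (j + 1) τ f - picard M N j τ f) by ring, abs_mul, abs_of_pos hτ.1]
        exact mul_le_mul_of_nonneg_left (ih f τ hτ.1.le) hτ.1.le
      · rw [pow_add, pow_mul]; ring
    refine (norm_integral_le_of_norm_le ?_ (ae_restrict_of_forall_mem measurableSet_Ioc hpt)).trans ?_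
    · exact (continuous_const.mul (continuous_pow _)).integrableOn_Ioc
    rw [← intervalIntegral.integral_of_le hs, intervalIntegral.integral_const_mul, integral_pow,
      zero_pow (by omega), sub_zero, Nat.factorial_succ]
    have h1 : (0 : ℝ) < j.factorial := by exact_mod_cast j.factorial_pos
    have h2 : s ^ (2 * j + 2 + 1) = s * (s ^ 2) ^ (j + 1) := by ring
    rw [h2]
    push_cast
    rw [div_mul_div_comm, ← mul_div_assoc, div_le_div_iff₀ (by positivity) (by positivity)]
    have h3 : 0 ≤ s * (s ^ 2) ^ (j + 1) := by positivity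
    nlinarith [mul_nonneg h3 h1.le]

/-- Uniform geometric-exponential bound on the increments. -/
theorem summable_stepBound (s : ℝ) : Summable fun j : ℕ => s * ((s ^ 2) ^ j / j.factorial) :=
  (Real.summable_pow_div_factorial _).mul_left s

theorem IsDrift.tendsto_picard (hM : IsDrift M) (e : ι) {s : ℝ} (hs : 0 ≤ s) :
    Tendsto (fun j => picard M N j s e) atTop (𝓝 (flow M N s e)) := by
  have h := ((summable_stepBound s).of_norm_bounded
    (f := fun j => picard M N (j + 1) s e - picard M N j s e)
    (fun j => hM.picard_step (N := N) j e s hs)).hasSum.tendsto_sum_nat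
  have h' := h.const_add (N e)
  refine h'.congr fun n => ?_
  rw [Finset.sum_range_sub fun j => picard M N j s e]
  simp [picard]

theorem IsDrift.flow_bound (hM : IsDrift M) (e : ι) {s : ℝ} (hs : 0 ≤ s) :
    |flow M N s e - N e| ≤ s :=
  le_of_tendsto (((hM.tendsto_picard e hs).sub_const _).abs)
    (Eventually.of_forall fun j => hM.picard_bound j e hs)

theorem IsDrift.flow_diff (hM : IsDrift M) (e : ι) {s t : ℝ} (hs : 0 ≤ s) (hst : s ≤ t) :
    flow M N t e - flow M N s e ∈ Set.Icc 0 (t - s) :=
  isClosed_Icc.mem_of_tendsto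
    (((hM.tendsto_picard e (hs.trans hst)).comp (tendsto_add_atTop_nat 1)).sub
      ((hM.tendsto_picard e hs).comp (tendsto_add_atTop_nat 1)))
    (Eventually.of_forall fun j => hM.picard_succ_diff j e hs hst)

theorem IsDrift.continuousOn_flow (hM : IsDrift M) (e : ι) (T : ℝ) :
    ContinuousOn (fun s => flow M N s e) (Set.Icc 0 T) := by
  refine (LipschitzOnWith.of_dist_le_mul (K := 1) fun s hs t ht => ?_).continuousOn
  simp only [Real.dist_eq, NNReal.coe_one, one_mul]
  rcases le_total s t with h | h
  · have := hM.flow_diff (N := N) e hs.1 h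
    rw [abs_sub_comm, abs_sub_comm s t, abs_of_nonneg this.1, abs_of_nonneg (by linarith)]
    exact this.2
  · have := hM.flow_diff (N := N) e ht.1 h
    rw [abs_of_nonneg this.1, abs_of_nonneg (by linarith)]
    exact this.2

theorem IsDrift.flow_eq (hM : IsDrift M) (e : ι) {s : ℝ} (hs : 0 ≤ s) :
    flow M N s e = N e + ∫ τ in Set.Ioc 0 s, M (drive τ (flow M N τ)) e := by
  refine tendsto_nhds_unique ((hM.tendsto_picard e hs).comp (tendsto_add_atTop_nat 1)) ?_
  refine Tendsto.const_add _ ?_
  refine tendsto_integral_of_dominated_convergence (fun _ => (1 : ℝ))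
    (fun j => (hM.measurable_along j e).aestronglyMeasurable)
    (integrableOn_const (by simp)) (fun j => Eventually.of_forall fun τ => hM.abs_le_one _ _) ?_
  refine ae_restrict_of_forall_mem measurableSet_Ioc fun τ hτ => ?_
  set tail : ℕ → ℝ := fun j => ∑' i, τ * ((τ ^ 2) ^ (i + j) / (i + j).factorial)
  have htail : Tendsto (fun j => 2 * (τ * tail j)) atTop (𝓝 0) := by
    simpa using ((tendsto_sum_nat_add fun i : ℕ => τ * ((τ ^ 2) ^ i / i.factorial)).const_mul
      τ).const_mul 2
  rw [tendsto_iff_norm_sub_tendsto_zero]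
  refine squeeze_zero (fun _ => norm_nonneg _) (fun j => hM.lip _ _ e _ fun f => ?_) htail
  simp only [drive]
  rw [show τ * picard M N j τ f - τ ^ 2 / 2 - (τ * flow M N τ f - τ ^ 2 / 2) =
    τ * (picard M N j τ f - flow M N τ f) by ring, abs_mul, abs_of_pos hτ.1]
  refine mul_le_mul_of_nonneg_left ?_ hτ.1.le
  have hb : ∀ i, dist (picard M N i τ f) (picard M N i.succ τ f) ≤
      τ * ((τ ^ 2) ^ i / i.factorial) := fun i => by
    rw [Real.dist_eq, abs_sub_comm]; exact hM.picard_step i f τ hτ.1.le
  have := dist_le_tsum_of_dist_le_of_tendsto _ hb (summable_stepBound τ)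
    (hM.tendsto_picard f hτ.1.le) j
  rw [Real.dist_eq] at this
  refine this.trans_eq ?_
  simp only [tail, add_comm]

/-- Convergence of flows from convergence of drifts along bounded perturbations. -/
theorem tendsto_flow {Mn : ℕ → (ι → ℝ) → ι → ℝ} (hMn : ∀ n, IsDrift (Mn n)) (hM : IsDrift M)
    (hconv : ∀ (Yn : ℕ → ι → ℝ) (Y : ι → ℝ) (D : ℝ),
      (∀ f, Tendsto (fun n => Yn n f) atTop (𝓝 (Y f))) → (∀ n f, |Yn n f - Y f| ≤ D) →
      ∀ e, Tendsto (fun n => Mn n (Yn n) e) atTop (𝓝 (M Y e)))
    (N : ι → ℝ) {s : ℝ} (hs : 0 ≤ s) (e : ι) :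
    Tendsto (fun n => flow (Mn n) N s e) atTop (𝓝 (flow M N s e)) := by
  have hp : ∀ j, ∀ (e : ι) (s : ℝ), 0 ≤ s →
      Tendsto (fun n => picard (Mn n) N j s e) atTop (𝓝 (picard M N j s e)) := by
    intro j
    induction j with
    | zero => exact fun e s _ => tendsto_const_nhds
    | succ j ih =>
      intro e s hs
      refine Tendsto.const_add _ ?_
      refine tendsto_integral_of_dominated_convergence (fun _ => (1 : ℝ))
        (fun n => ((hMn n).measurable_along j e).aestronglyMeasurable)
        (integrableOn_const (by simp))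
        (fun n => Eventually.of_forall fun τ => (hMn n).abs_le_one _ _) ?_
      refine ae_restrict_of_forall_mem measurableSet_Ioc fun τ hτ => ?_
      refine hconv _ _ (τ * (2 * τ)) (fun f => ((ih f τ hτ.1.le).const_mul τ).sub_const _)
        (fun n f => ?_) e
      show |τ * picard (Mn n) N j τ f - τ ^ 2 / 2 - (τ * picard M N j τ f - τ ^ 2 / 2)| ≤ _
      rw [show τ * picard (Mn n) N j τ f - τ ^ 2 / 2 - (τ * picard M N j τ f - τ ^ 2 / 2) =
        τ * (picard (Mn n) N j τ f - picard M N j τ f) by ring, abs_mul, abs_of_pos hτ.1]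
      refine mul_le_mul_of_nonneg_left ?_ hτ.1.le
      calc |picard (Mn n) N j τ f - picard M N j τ f|
          ≤ |picard (Mn n) N j τ f - N f| + |N f - picard M N j τ f| := abs_sub_le _ _ _
        _ ≤ 2 * τ := by
          rw [abs_sub_comm (N f)]
          linarith [(hMn n).picard_bound (N := N) j f hτ.1.le,
            hM.picard_bound (N := N) j f hτ.1.le]
  unfold flow
  refine Tendsto.const_add _ (tendsto_tsum_of_dominated_convergence (summable_stepBound s)
    (fun j => (hp (j + 1) e s hs).sub (hp j e s hs))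
    (Eventually.of_forall fun n j => (hMn n).picard_step j e s hs))

/-- Relabelling. -/
theorem flow_map {κ : Type*} {M' : (κ → ℝ) → κ → ℝ} (σ : κ → ι)
    (h : ∀ Y e, M' (Y ∘ σ) e = M Y (σ e)) (N : ι → ℝ) (s : ℝ) (e : κ) :
    flow M' (N ∘ σ) s e = flow M N s (σ e) := by
  have hp : ∀ j, ∀ s e, picard M' (N ∘ σ) j s e = picard M N j s (σ e) := by
    intro j
    induction j with
    | zero => exact fun _ _ => rfl
    | succ j ih =>
      intro s e
      simp only [picard, Function.comp_apply]
      congr 2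
      funext τ
      have : drive τ (picard M' (N ∘ σ) j τ) = drive τ (picard M N j τ) ∘ σ := by
        funext f; simp [drive, ih]
      rw [this, h]
  simp only [flow, hp, Function.comp_apply]

end Vale.Agent.P143
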