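import Vale.Agent.P143.Defs

/-!
Kirchhoff: the window marginal is the weighted spanning tree marginal.

For a tree `P` and one of its edges `f`, `P.deleteEdges {f}` has two components, and
`sideFun` compares the sides of the two distinguished points. Exchanging the distinguished
edge with an edge between the two components matches the energy pairing of the averaged
side function with a telescoping sum along tree paths.
-/

namespace Vale.Agent.P143

open scoped Classical

variable {V : Type*}

/-- Weight of a spanning tree given by log-weights `Y` on the edge set `S` of the window. -/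
noncomputable def treeWeight {G : SimpleGraph V} (S : Finset (Sym2 V)) (Y : Sym2 V → ℝ)
    (T : G.Subgraph) : ℝ :=
  Real.exp (∑ f ∈ S, if f ∈ T.edgeSet then Y f else 0)

/-- The spanning trees of a finite subgraph form a finite nonempty set. -/
theorem spanningTrees_finite_nonempty {G : SimpleGraph V} {H : G.Subgraph}
    (hfin : H.verts.Finite) (hconn : H.Connected) :
    (spanningTrees H).Finite ∧ (spanningTrees H).Nonempty := by
  have hE : H.edgeSet.Finite := by
    refine ((hfin.prod hfin).image fun p : V × V => s(p.1, p.2)).subset ?_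
    intro f hf
    induction f using Sym2.ind with
    | h u v =>
      exact ⟨(u, v), ⟨H.edge_vert hf, H.edge_vert (SimpleGraph.Subgraph.Adj.symm hf)⟩, rfl⟩
  refine ⟨Set.Finite.of_finite_image (f := fun T : G.Subgraph => T.edgeSet)
    (hE.powerset.subset ?_) ?_, ?_⟩
  · rintro _ ⟨T, ⟨hle, -, -⟩, rfl⟩
    exact SimpleGraph.Subgraph.edgeSet_mono hle
  · rintro T ⟨-, hv, -⟩ T' ⟨-, hv', -⟩ h
    ext u v
    · rw [hv, hv']
    · exact iff_of_eq (congrArg (fun E : Set (Sym2 V) => s(u, v) ∈ E) h)
  · have := hfin.to_subtype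
    obtain ⟨K, hK, htree⟩ := (SimpleGraph.Subgraph.connected_iff'.1 hconn).exists_isTree_le
    refine ⟨{ verts := H.verts
              Adj := fun u v => ∃ (hu : u ∈ H.verts) (hv : v ∈ H.verts), K.Adj ⟨u, hu⟩ ⟨v, hv⟩
              adj_sub := fun ⟨_, _, h⟩ => H.adj_sub (hK h)
              edge_vert := fun ⟨hu, _, _⟩ => hu
              symm := ⟨fun _ _ ⟨hu, hv, h⟩ => ⟨hv, hu, h.symm⟩⟩ },
      ⟨le_rfl, fun _ _ ⟨_, _, h⟩ => hK h⟩, rfl, ?_⟩
    convert htree using 1
    ext u v
    exact ⟨fun ⟨_, _, h⟩ => h, fun h => ⟨u.2, v.2, h⟩⟩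

/-- The symmetric product of two gradients along an unordered pair. -/
def gradProd (φ h : V → ℝ) : Sym2 V → ℝ :=
  Sym2.lift ⟨fun u v => (φ v - φ u) * (h v - h u), fun u v => by ring⟩

/-- `+1` on the component of `y`, `-1` on the component of `x`. -/
noncomputable def sideFun (K : SimpleGraph V) (x y v : V) : ℝ :=
  (if K.Reachable y v then 1 else 0) - (if K.Reachable x v then 1 else 0)

/-- Tree weight of a graph on the window. -/
noncomputable def edgeWeight (S : Finset (Sym2 V)) (Y : Sym2 V → ℝ) (P : SimpleGraph V) : ℝ :=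
  Real.exp (∑ f ∈ S, P.edgeSet.indicator Y f)

/-- A spanning tree, seen as a graph on the ambient type. -/
def SpanT (H : SimpleGraph V) (W : Set V) (P : SimpleGraph V) : Prop :=
  P ≤ H ∧ P.IsAcyclic ∧ ∀ u ∈ W, ∀ v ∈ W, P.Reachable u v

/-- Remove the pair `g` and add the pair `f`. -/
def swapEdge (P : SimpleGraph V) (g f : Sym2 V) : SimpleGraph V :=
  P.deleteEdges {g} ⊔ SimpleGraph.fromEdgeSet {f}

section Combinatorics

variable {H P : SimpleGraph V} {W : Set V} {x y u v a b : V}

theorem sideFun_eq_of_reachable {K : SimpleGraph V} (h : K.Reachable a b) :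
    sideFun K x y a = sideFun K x y b := by
  have key : ∀ z, K.Reachable z a ↔ K.Reachable z b :=
    fun z => ⟨fun h' => h'.trans h, fun h' => h'.trans h.symm⟩
  simp [sideFun, key]

theorem sideFun_eq_zero {K : SimpleGraph V} (h : K.Reachable x y) : sideFun K x y a = 0 := by
  have key : K.Reachable y a ↔ K.Reachable x a :=
    ⟨fun h' => h.trans h', fun h' => h.symm.trans h'⟩
  simp [sideFun, key]

theorem reachable_or_of_walk (p : P.Walk a b) :
    (P.deleteEdges {s(u, v)}).Reachable a b ∨ (P.deleteEdges {s(u, v)}).Reachable a u ∨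
      (P.deleteEdges {s(u, v)}).Reachable a v := by
  induction p with
  | nil => exact Or.inl SimpleGraph.Reachable.rfl
  | @cons c d _ hcd q ih =>
    by_cases he : s(c, d) = s(u, v)
    · rcases Sym2.eq_iff.1 he with ⟨rfl, rfl⟩ | ⟨rfl, rfl⟩
      · exact Or.inr (Or.inl SimpleGraph.Reachable.rfl)
      · exact Or.inr (Or.inr SimpleGraph.Reachable.rfl)
    · have h1 : (P.deleteEdges {s(u, v)}).Reachable c d :=
        (SimpleGraph.Adj.reachable ((SimpleGraph.deleteEdges_adj).2 ⟨hcd, by simpa using he⟩))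
      exact ih.imp h1.trans (Or.imp h1.trans h1.trans)

theorem swapEdge_spanT (hP : SpanT H W P) (hu : u ∈ W) (_huv : P.Adj u v)
    (ha : a ∈ W) (hb : b ∈ W) (hab : H.Adj a b)
    (hsep : ¬ (P.deleteEdges {s(u, v)}).Reachable a b) :
    SpanT H W (swapEdge P s(u, v) s(a, b)) := by
  obtain ⟨hle, hac, hreach⟩ := hP
  set K := P.deleteEdges {s(u, v)} with hK
  have hKle : K ≤ P := SimpleGraph.deleteEdges_le _
  have hQ : swapEdge P s(u, v) s(a, b) = K ⊔ SimpleGraph.edge a b := rfl
  rw [hQ]
  refine ⟨sup_le (hKle.trans hle) ?_, (hac.anti hKle).sup_edge_of_not_reachable hsep, ?_⟩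
  · intro p q hpq
    rw [SimpleGraph.edge_adj] at hpq
    rcases hpq.1 with ⟨rfl, rfl⟩ | ⟨rfl, rfl⟩
    · exact hab
    · exact hab.symm
  · set Q := K ⊔ SimpleGraph.edge a b with hQ'
    have hKQ : ∀ {p q}, K.Reachable p q → Q.Reachable p q := fun h => h.mono le_sup_left
    have hne : a ≠ b := fun h => hsep (h ▸ SimpleGraph.Reachable.rfl)
    have hQab : Q.Reachable a b :=
      SimpleGraph.Adj.reachable (Or.inr ((SimpleGraph.edge_adj ..).2 ⟨Or.inl ⟨rfl, rfl⟩, hne⟩))
    have cls : ∀ c ∈ W, K.Reachable c u ∨ K.Reachable c v := fun c hc => by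
      obtain ⟨p⟩ := hreach c hc u hu
      rcases reachable_or_of_walk (u := u) (v := v) p with h | h | h
      · exact Or.inl h
      · exact Or.inl h
      · exact Or.inr h
    have hQuv : Q.Reachable u v := by
      rcases cls a ha with h1 | h1 <;> rcases cls b hb with h2 | h2
      · exact absurd (h1.trans h2.symm) hsep
      · exact (hKQ h1.symm).trans (hQab.trans (hKQ h2))
      · exact (hKQ h2.symm).trans (hQab.symm.trans (hKQ h1))
      · exact absurd (h1.trans h2.symm) hsep
    intro c hc d hd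
    have toU : ∀ c ∈ W, Q.Reachable c u := fun c hc =>
      (cls c hc).elim hKQ fun h => (hKQ h).trans hQuv.symm
    exact (toU c hc).trans (toU d hd).symm

theorem swapEdge_back {g f : Sym2 V} (hg : g ∈ P.edgeSet) (hf : ¬ f.IsDiag)
    (hfK : f ∉ (P.deleteEdges {g}).edgeSet) :
    f ∈ (swapEdge P g f).edgeSet ∧ swapEdge (swapEdge P g f) f g = P ∧
      (swapEdge P g f).deleteEdges {f} = P.deleteEdges {g} := by
  have h1 : (swapEdge P g f).edgeSet = (P.deleteEdges {g}).edgeSet ∪ {f} := by
    ext z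
    simp only [swapEdge, SimpleGraph.edgeSet_sup, SimpleGraph.edgeSet_fromEdgeSet, Set.mem_union,
      Set.mem_sdiff, Set.mem_singleton_iff]
    constructor
    · exact Or.imp id And.left
    · rintro (h | rfl)
      · exact Or.inl h
      · exact Or.inr ⟨rfl, hf⟩
  have h2 : (swapEdge P g f).deleteEdges {f} = P.deleteEdges {g} := by
    refine SimpleGraph.edgeSet_inj.1 ?_
    rw [SimpleGraph.edgeSet_deleteEdges, h1, Set.union_sdiff_right]
    exact sdiff_eq_left.2 (Set.disjoint_singleton_right.2 hfK)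
  refine ⟨h1 ▸ Or.inr rfl, ?_, h2⟩
  have hgd : ¬ g.IsDiag := P.not_isDiag_of_mem_edgeSet hg
  refine SimpleGraph.edgeSet_inj.1 ?_
  rw [swapEdge, h2, SimpleGraph.edgeSet_sup, SimpleGraph.edgeSet_fromEdgeSet,
    SimpleGraph.edgeSet_deleteEdges]
  ext z
  simp only [Set.mem_union, Set.mem_sdiff, Set.mem_singleton_iff]
  constructor
  · rintro (⟨h, -⟩ | ⟨rfl, -⟩) <;> assumption
  · intro h
    by_cases hz : z = g
    · subst hz; exact Or.inr ⟨rfl, hgd⟩
    · exact Or.inl ⟨h, hz⟩

theorem edgeWeight_delete {S : Finset (Sym2 V)} {Y : Sym2 V → ℝ} {g : Sym2 V} (hS : g ∈ S)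
    (hg : g ∈ P.edgeSet) :
    edgeWeight S Y P = Real.exp (Y g) * edgeWeight S Y (P.deleteEdges {g}) := by
  rw [edgeWeight, edgeWeight, ← Real.exp_add]
  congr 1
  rw [← Finset.add_sum_erase S _ hS, Set.indicator_of_mem hg]
  have e : ∑ f ∈ S, (P.deleteEdges {g}).edgeSet.indicator Y f =
      ∑ f ∈ S.erase g, P.edgeSet.indicator Y f := by
    rw [← Finset.sum_erase S (a := g) (Set.indicator_of_notMem
      (fun h => by simp [SimpleGraph.edgeSet_deleteEdges] at h) Y)]
    refine Finset.sum_congr rfl fun f hf => ?_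
    simp [Set.indicator_apply, SimpleGraph.edgeSet_deleteEdges, Finset.ne_of_mem_erase hf]
  rw [e]

theorem trail_dart (p : P.Walk a b) (hp : p.IsTrail) : ∀ d ∈ p.darts,
    (P.deleteEdges {d.edge}).Reachable a d.fst ∧ (P.deleteEdges {d.edge}).Reachable d.snd b := by
  induction p with
  | nil => simp
  | @cons c d' b hcd q ih =>
    rw [SimpleGraph.Walk.isTrail_cons] at hp
    intro d hd
    rw [SimpleGraph.Walk.darts_cons, List.mem_cons] at hd
    rcases hd with rfl | hd
    · refine ⟨SimpleGraph.Reachable.rfl, ⟨q.toDeleteEdges _ fun z hz => ?_⟩⟩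
      simp only [Set.mem_singleton_iff]
      rintro rfl
      exact hp.2 hz
    · refine ⟨(SimpleGraph.Adj.reachable ?_).trans (ih hp.1 d hd).1, (ih hp.1 d hd).2⟩
      refine SimpleGraph.deleteEdges_adj.2 ⟨hcd, ?_⟩
      simp only [Set.mem_singleton_iff]
      exact fun h => hp.2 (h ▸ List.mem_map_of_mem hd)

theorem sum_darts_sub (h : V → ℝ) (p : P.Walk a b) :
    (p.darts.map fun d => h d.snd - h d.fst).sum = h b - h a := by
  induction p with
  | nil => simp
  | cons hcd q ih => simp [ih]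

/-- Telescoping along the path of a tree. -/
theorem sum_sideFun_tree (hac : P.IsAcyclic) (hxy : P.Reachable x y) (S : Finset (Sym2 V))
    (hsub : P.edgeSet ⊆ ↑S) (h : V → ℝ) :
    (∑ f ∈ S, if f ∈ P.edgeSet then gradProd (sideFun (P.deleteEdges {f}) x y) h f else 0) =
      2 * (h y - h x) := by
  obtain ⟨p, hp⟩ := hxy.exists_isPath
  have htr := hp.isTrail
  have hval : ∀ d ∈ p.darts, gradProd (sideFun (P.deleteEdges {d.edge}) x y) h d.edge =
      2 * (h d.snd - h d.fst) := by
    intro d hd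
    obtain ⟨h1, h2⟩ := trail_dart p htr d hd
    have hb : ¬ (P.deleteEdges {d.edge}).Reachable d.fst d.snd :=
      SimpleGraph.isAcyclic_iff_forall_adj_isBridge.1 hac d.adj
    have n1 : ¬ (P.deleteEdges {d.edge}).Reachable y d.fst :=
      fun h' => hb (h'.symm.trans h2.symm)
    have n2 : ¬ (P.deleteEdges {d.edge}).Reachable x d.snd := fun h' => hb (h1.symm.trans h')
    have e : gradProd (sideFun (P.deleteEdges {d.edge}) x y) h d.edge =
        (sideFun (P.deleteEdges {d.edge}) x y d.snd - sideFun (P.deleteEdges {d.edge}) x y d.fst) *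
          (h d.snd - h d.fst) := rfl
    rw [e]
    simp [sideFun, h1, h2.symm, n1, n2]
    exact Or.inl (by norm_num)
  rw [← Finset.sum_subset (s₁ := p.edges.toFinset) (fun f hf =>
    hsub (p.edges_subset_edgeSet (List.mem_toFinset.1 hf)))]
  · rw [List.sum_toFinset _ htr.edges_nodup]
    rw [SimpleGraph.Walk.edges, List.map_map]
    rw [List.map_congr_left (g := fun d : P.Dart => 2 * (h d.snd - h d.fst))]
    · rw [List.sum_map_mul_left, sum_darts_sub]
    · intro d hd
      simp only [Function.comp_apply]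
      rw [if_pos d.edge_mem, hval d hd]
  · intro f _ hf
    split_ifs with hfP
    · have hxy' : (P.deleteEdges {f}).Reachable x y := ⟨p.toDeleteEdges _ fun z hz => by
        simp only [Set.mem_singleton_iff]
        rintro rfl
        exact hf (List.mem_toFinset.2 hz)⟩
      induction f using Sym2.ind with
      | h u v => simp [gradProd, sideFun_eq_zero hxy']
    · rfl

theorem gradProd_side_ne {K : SimpleGraph V} {h : V → ℝ}
    (hne : gradProd (sideFun K x y) h s(u, v) ≠ 0) :
    ¬ K.Reachable u v ∧ ¬ K.Reachable x y := by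
  constructor <;> intro hr <;> apply hne
  · simp [gradProd, sideFun_eq_of_reachable hr]
  · simp [gradProd, sideFun_eq_zero hr]

end Combinatorics

theorem gradProd_smul_sum {ι : Type*} (s : Finset ι) (c : ℝ) (w : ι → ℝ) (ψ : ι → V → ℝ)
    (h : V → ℝ) (f : Sym2 V) :
    gradProd (fun v => c * ∑ i ∈ s, w i * ψ i v) h f = c * ∑ i ∈ s, w i * gradProd (ψ i) h f := by
  induction f using Sym2.ind with
  | h u v =>
    simp only [gradProd, Sym2.lift_mk, Finset.mul_sum]
    rw [← Finset.sum_sub_distrib, Finset.sum_mul]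
    exact Finset.sum_congr rfl fun i _ => by ring

/-- The energy pairing of the averaged side function: the exchange identity. -/
theorem exchange_identity {H : SimpleGraph V} {W : Set V}
    (hW : ∀ u v, H.Adj u v → u ∈ W) (S : Finset (Sym2 V)) (hS : ↑S = H.edgeSet)
    (Y : Sym2 V → ℝ) {x y : V} (hxy : H.Adj x y) (Ps : Finset (SimpleGraph V))
    (hPs : ∀ P, P ∈ Ps ↔ SpanT H W P) (h : V → ℝ) :
    (∑ P ∈ Ps with s(x, y) ∈ P.edgeSet, edgeWeight S Y P *
        ∑ f ∈ S, Real.exp (Y f) * gradProd (sideFun (P.deleteEdges {s(x, y)}) x y) h f) =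
      Real.exp (Y s(x, y)) * (2 * (h y - h x)) * ∑ P ∈ Ps, edgeWeight S Y P := by
  set e := s(x, y) with he
  have heS : e ∈ S := by rw [← Finset.mem_coe, hS]; exact hxy
  have hxW : x ∈ W := hW _ _ hxy
  have hyW : y ∈ W := hW _ _ hxy.symm
  have hSH : ∀ {f}, f ∈ S → f ∈ H.edgeSet := fun {f} hf => by rw [← hS]; exact hf
  have hR : Real.exp (Y e) * (2 * (h y - h x)) * ∑ P ∈ Ps, edgeWeight S Y P =
      ∑ q ∈ (Ps ×ˢ S).filter (fun q => q.2 ∈ q.1.edgeSet), Real.exp (Y e) *
        (edgeWeight S Y q.1 * gradProd (sideFun (q.1.deleteEdges {q.2}) x y) h q.2) := by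
    rw [Finset.sum_filter, Finset.sum_product, Finset.mul_sum]
    refine Finset.sum_congr rfl fun P hP => ?_
    obtain ⟨hle, hac, hre⟩ := (hPs P).1 hP
    rw [← sum_sideFun_tree hac (hre x hxW y hyW) S (by
      rw [hS]; exact SimpleGraph.edgeSet_mono hle) h, Finset.mul_sum, Finset.sum_mul]
    refine Finset.sum_congr rfl fun f _ => ?_
    by_cases hf : f ∈ P.edgeSet <;> simp [hf]
    ring
  have hL : (∑ P ∈ Ps with e ∈ P.edgeSet, edgeWeight S Y P *
        ∑ f ∈ S, Real.exp (Y f) * gradProd (sideFun (P.deleteEdges {e}) x y) h f) =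
      ∑ q ∈ (Ps ×ˢ S).filter (fun q => e ∈ q.1.edgeSet),
        edgeWeight S Y q.1 * (Real.exp (Y q.2) *
          gradProd (sideFun (q.1.deleteEdges {e}) x y) h q.2) := by
    rw [Finset.sum_filter, Finset.sum_filter, Finset.sum_product]
    refine Finset.sum_congr rfl fun P _ => ?_
    by_cases hP : e ∈ P.edgeSet <;> simp [hP, Finset.mul_sum]
  rw [hL, hR]
  have fwd : ∀ q : SimpleGraph V × Sym2 V, q ∈ (Ps ×ˢ S).filter (fun q => e ∈ q.1.edgeSet) →
      gradProd (sideFun (q.1.deleteEdges {e}) x y) h q.2 ≠ 0 →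
      (swapEdge q.1 e q.2, q.2) ∈ (Ps ×ˢ S).filter (fun q => q.2 ∈ q.1.edgeSet) ∧
        swapEdge (swapEdge q.1 e q.2) q.2 e = q.1 ∧
        (swapEdge q.1 e q.2).deleteEdges {q.2} = q.1.deleteEdges {e} := by
    rintro ⟨P, f⟩ hq hne
    simp only [Finset.mem_filter, Finset.mem_product] at hq hne ⊢
    obtain ⟨⟨hP, hf⟩, heP⟩ := hq
    induction f using Sym2.ind with
    | h u v =>
      obtain ⟨hns, -⟩ := gradProd_side_ne hne
      have huv : H.Adj u v := hSH hf
      obtain ⟨h1, h2, h3⟩ := swapEdge_back (f := s(u, v)) heP (by simpa using huv.ne)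
        (fun h' => hns (SimpleGraph.Adj.reachable h'))
      exact ⟨⟨⟨(hPs _).2 (swapEdge_spanT ((hPs P).1 hP) hxW heP (hW _ _ huv) (hW _ _ huv.symm)
        huv hns), hf⟩, h1⟩, h2, h3⟩
  refine Finset.sum_bij_ne_zero (fun q _ _ => (swapEdge q.1 e q.2, q.2)) ?_ ?_ ?_ ?_
  · intro q hq hne
    exact (fwd q hq (right_ne_zero_of_mul (right_ne_zero_of_mul hne))).1
  · intro q hq hne q' hq' hne' heq
    have a1 := (fwd q hq (right_ne_zero_of_mul (right_ne_zero_of_mul hne))).2.1
    have a2 := (fwd q' hq' (right_ne_zero_of_mul (right_ne_zero_of_mul hne'))).2.1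
    simp only [Prod.mk.injEq] at heq
    refine Prod.ext ?_ heq.2
    rw [← a1, ← a2, heq.1, heq.2]
  · rintro ⟨P, f⟩ hq hne
    simp only [Finset.mem_filter, Finset.mem_product] at hq
    obtain ⟨⟨hP, hf⟩, hfP⟩ := hq
    induction f using Sym2.ind with
    | h u v =>
      have hne0 : gradProd (sideFun (P.deleteEdges {s(u, v)}) x y) h s(u, v) ≠ 0 :=
        right_ne_zero_of_mul (right_ne_zero_of_mul hne)
      obtain ⟨-, hns⟩ := gradProd_side_ne hne0
      obtain ⟨h1, h2, h3⟩ := swapEdge_back (f := e) hfP (by simpa [he] using hxy.ne)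
        (fun h' => hns (SimpleGraph.Adj.reachable h'))
      have hspan := swapEdge_spanT ((hPs P).1 hP) (hW _ _ (hSH hf)) hfP hxW hyW hxy hns
      refine ⟨(swapEdge P s(u, v) e, s(u, v)), ?_, ?_, ?_⟩
      · simp only [Finset.mem_filter, Finset.mem_product]
        exact ⟨⟨(hPs _).2 hspan, hf⟩, h1⟩
      · rw [h3]
        exact mul_ne_zero (Real.exp_pos _).ne' (mul_ne_zero (Real.exp_pos _).ne' hne0)
      · simp only [h2]
  · intro q hq hne
    obtain ⟨h1, -, h3⟩ := fwd q hq (right_ne_zero_of_mul (right_ne_zero_of_mul hne))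
    simp only [Finset.mem_filter, Finset.mem_product] at hq h1
    simp only [h3]
    rw [edgeWeight_delete heS hq.2, edgeWeight_delete h1.1.2 h1.2, h3]
    ring

/-- The spanning trees of a subgraph are exactly the graphs satisfying `SpanT`. -/
theorem mem_spanningTrees_iff {G : SimpleGraph V} {H : G.Subgraph} (hne : H.verts.Nonempty)
    (P : SimpleGraph V) :
    SpanT H.spanningCoe H.verts P ↔ ∃ T ∈ spanningTrees H, T.spanningCoe = P := by
  constructor
  · rintro ⟨hle, hac, hre⟩
    let T : G.Subgraph :=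
      { verts := H.verts
        Adj := P.Adj
        adj_sub := fun h => H.adj_sub (hle h)
        edge_vert := fun h => H.edge_vert (hle h)
        symm := ⟨fun _ _ h => h.symm⟩ }
    have hlift : ∀ {a b : V} (_ : P.Walk a b) (ha : a ∈ T.verts) (hb : b ∈ T.verts),
        T.coe.Reachable ⟨a, ha⟩ ⟨b, hb⟩ := by
      intro a b p
      induction p with
      | nil => exact fun _ _ => SimpleGraph.Reachable.rfl
      | @cons c d _ hcd q ih =>
        intro ha hb
        have hd : d ∈ T.verts := H.edge_vert (hle hcd.symm)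
        exact (SimpleGraph.Adj.reachable (show T.coe.Adj ⟨c, ha⟩ ⟨d, hd⟩ from hcd)).trans
          (ih hd hb)
    refine ⟨T, ⟨⟨le_rfl, fun _ _ h => hle h⟩, rfl, ?_, ?_⟩, rfl⟩
    · rw [SimpleGraph.connected_iff]
      refine ⟨fun a b => ?_, ?_⟩
      · obtain ⟨p⟩ := hre a.1 a.2 b.1 b.2
        exact hlift p a.2 b.2
      · exact hne.to_subtype
    · exact hac.comap ⟨Subtype.val, fun {a b} h => h⟩ Subtype.val_injective
  · rintro ⟨T, ⟨hle, hv, htree⟩, rfl⟩
    refine ⟨fun a b h => hle.2 h, ?_, fun u hu v hw => ?_⟩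
    · refine SimpleGraph.isAcyclic_iff_forall_adj_isBridge.2 fun u v huv hr => ?_
      have hu : u ∈ T.verts := T.edge_vert huv
      have hv' : v ∈ T.verts := T.edge_vert huv.symm
      refine SimpleGraph.isAcyclic_iff_forall_adj_isBridge.1 htree.isAcyclic
        (show T.coe.Adj ⟨u, hu⟩ ⟨v, hv'⟩ from huv) ?_
      have lift : ∀ {a b : V} (_ : (T.spanningCoe.deleteEdges {s(u, v)}).Walk a b)
          (ha : a ∈ T.verts) (hb : b ∈ T.verts),
          (T.coe.deleteEdges {s(⟨u, hu⟩, ⟨v, hv'⟩)}).Reachable ⟨a, ha⟩ ⟨b, hb⟩ := by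
        intro a b p
        induction p with
        | nil => exact fun _ _ => SimpleGraph.Reachable.rfl
        | @cons c d _ hcd q ih =>
          intro hc hb
          obtain ⟨hadj, hne'⟩ := SimpleGraph.deleteEdges_adj.1 hcd
          have hd : d ∈ T.verts := T.edge_vert hadj.symm
          refine (SimpleGraph.Adj.reachable ?_).trans (ih hd hb)
          refine SimpleGraph.deleteEdges_adj.2 ⟨hadj, fun h => hne' ?_⟩
          simpa [Sym2.eq_iff, Subtype.ext_iff] using h
      obtain ⟨p⟩ := hr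
      exact lift p hu hv'
    · rw [← hv] at hu hw
      exact (htree.1.preconnected ⟨u, hu⟩ ⟨v, hw⟩).map
        ⟨Subtype.val, fun {a b} h => h⟩

theorem edgeSet_spanningCoe_eq {G : SimpleGraph V} (T : G.Subgraph) :
    T.spanningCoe.edgeSet = T.edgeSet := by
  ext f
  induction f using Sym2.ind with
  | h u v => rfl

theorem winMarg_eq_treeMarginal {G : SimpleGraph V} {H : G.Subgraph}
    (hfin : H.verts.Finite) (hconn : H.Connected)
    (S : Finset (Sym2 V)) (hS : ↑S = H.edgeSet) (Y : Sym2 V → ℝ) (e : Sym2 V) (he : e ∈ S)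
    (trees : Finset G.Subgraph) (htrees : ↑trees = spanningTrees H) :
    winMarg (edgeCode G) S Y e =
      (∑ T ∈ trees, if e ∈ T.edgeSet then treeWeight S Y T else 0) /
        (∑ T ∈ trees, treeWeight S Y T) := by
  have hmem : ∀ T, T ∈ trees ↔ T ∈ spanningTrees H := fun T => by
    rw [← htrees, Finset.mem_coe]
  induction e using Sym2.ind with
  | h x y =>
  have hxy : H.Adj x y := (hS ▸ he : s(x, y) ∈ H.edgeSet)
  set Ps : Finset (SimpleGraph V) := trees.image fun T => T.spanningCoe with hPsdef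
  have hPs : ∀ P, P ∈ Ps ↔ SpanT H.spanningCoe H.verts P := fun P => by
    rw [mem_spanningTrees_iff hconn.nonempty]
    simp [hPsdef, hmem]
  have hinj : Set.InjOn (fun T : G.Subgraph => T.spanningCoe) trees := by
    intro T hT T' hT' h
    have h1 := ((hmem T).1 hT).2.1
    have h2 := ((hmem T').1 hT').2.1
    ext u v
    · rw [h1, h2]
    · exact iff_of_eq (congrArg (fun K : SimpleGraph V => K.Adj u v) h)
  have hW : ∀ T : G.Subgraph, treeWeight S Y T = edgeWeight S Y T.spanningCoe := fun T => by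
    simp [treeWeight, edgeWeight, Set.indicator_apply]
  set Z : ℝ := ∑ P ∈ Ps, edgeWeight S Y P with hZdef
  set Ze : ℝ := ∑ P ∈ Ps with s(x, y) ∈ P.edgeSet, edgeWeight S Y P with hZedef
  have hsum1 : ∑ T ∈ trees, treeWeight S Y T = Z := by
    rw [hZdef, hPsdef, Finset.sum_image hinj]
    exact Finset.sum_congr rfl fun T _ => hW T
  have hsum2 : (∑ T ∈ trees, if s(x, y) ∈ T.edgeSet then treeWeight S Y T else 0) = Ze := by
    rw [hZedef, Finset.sum_filter, hPsdef, Finset.sum_image hinj]
    exact Finset.sum_congr rfl fun T _ => by simp [hW T]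
  rw [hsum1, hsum2]
  have hS' : ↑S = H.spanningCoe.edgeSet := by rw [hS, edgeSet_spanningCoe_eq]
  have key := exchange_identity (W := H.verts) (fun u v h => H.edge_vert h) S hS' Y
    (show H.spanningCoe.Adj x y from hxy) Ps hPs
  have hne : x ≠ y := hxy.ne
  have hZpos : 0 < Z := by
    refine Finset.sum_pos (fun P _ => Real.exp_pos _) ?_
    obtain ⟨T, hT⟩ := (spanningTrees_finite_nonempty hfin hconn).2
    exact ⟨T.spanningCoe, Finset.mem_image_of_mem _ ((hmem T).2 hT)⟩
  have hZe : 0 < Ze := by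
    refine Finset.sum_pos (fun P _ => Real.exp_pos _) ?_
    by_contra hempty
    have h1 := key (Pi.single y 1)
    rw [Finset.not_nonempty_iff_eq_empty.1 hempty, Finset.sum_empty, ← hZdef,
      Pi.single_eq_same, Pi.single_eq_of_ne hne] at h1
    nlinarith [mul_pos (Real.exp_pos (Y s(x, y))) hZpos]
  set φ : V → ℝ := fun v => (2 * Ze)⁻¹ * ∑ P ∈ Ps with s(x, y) ∈ P.edgeSet,
    edgeWeight S Y P * sideFun (P.deleteEdges {s(x, y)}) x y v with hφ
  set c : ℝ := Real.exp (Y s(x, y)) * Z / Ze with hc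
  have pair : ∀ h : V → ℝ, ∑ f ∈ S, Real.exp (Y f) * gradProd φ h f = c * (h y - h x) := by
    intro h
    have k := key h
    rw [← hZdef] at k
    rw [hφ]
    simp only [gradProd_smul_sum]
    simp only [Finset.mul_sum] at k ⊢
    calc _ = (2 * Ze)⁻¹ * (Real.exp (Y s(x, y)) * (2 * (h y - h x)) * Z) := by
          rw [← k]
          simp only [Finset.mul_sum]
          rw [Finset.sum_comm]
          exact Finset.sum_congr rfl fun P _ => Finset.sum_congr rfl fun f _ => by ring
      _ = c * (h y - h x) := by rw [hc]; field_simp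

  have hjump : φ y - φ x = 1 := by
    simp only [hφ]
    rw [← mul_sub, ← Finset.sum_sub_distrib, inv_mul_eq_one₀ (by positivity), hZedef,
      Finset.mul_sum]
    refine (Finset.sum_congr rfl fun P hP => ?_).symm
    obtain ⟨hP1, hP2⟩ := Finset.mem_filter.1 hP
    have hb : ¬ (P.deleteEdges {s(x, y)}).Reachable x y :=
      SimpleGraph.isAcyclic_iff_forall_adj_isBridge.1 ((hPs P).1 hP1).2.1 hP2
    have hb' : ¬ (P.deleteEdges {s(x, y)}).Reachable y x := fun h => hb h.symm
    simp [sideFun, hb, hb', SimpleGraph.Reachable.rfl]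
    ring
  have hA : ∀ f ∈ S, edgeCode G f = true := fun f hf =>
    (edgeCode_eq_true G).2 (H.edgeSet_subset (by rw [← hS]; exact hf))
  have hself : ∀ (ψ : V → ℝ) f, gradProd ψ ψ f = gradSq ψ f := fun ψ f => by
    induction f using Sym2.ind with
    | h u v => simp [gradProd]; ring
  have henergy : ∀ ψ : V → ℝ, gradSq ψ s(x, y) = 1 →
      winEnergy (edgeCode G) S Y s(x, y) ψ = ∑ f ∈ S, Real.exp (Y f) * gradSq ψ f := by
    intro ψ hψ
    rw [winEnergy, ← Finset.add_sum_erase S (fun f => Real.exp (Y f) * gradSq ψ f) he, hψ, mul_one,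
      ← Finset.add_sum_erase S (fun f =>
        if edgeCode G f = true ∧ f ≠ s(x, y) then Real.exp (Y f) * gradSq ψ f else 0) he]
    simp only [ne_eq, not_true, and_false, if_false, zero_add]
    refine congrArg _ (Finset.sum_congr rfl fun f hf => ?_)
    rw [if_pos ⟨hA f (Finset.mem_of_mem_erase hf), Finset.ne_of_mem_erase hf⟩]
  have hφe : gradSq φ s(x, y) = 1 := by rw [gradSq_mk]; nlinarith
  have hφE : ∑ f ∈ S, Real.exp (Y f) * gradSq φ f = c := by
    have := pair φ
    rw [hjump, mul_one] at this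
    simpa [hself] using this
  have hcond : winCond (edgeCode G) S Y s(x, y) = c := by
    refine le_antisymm ((winCond_le φ hφe).trans_eq (by rw [henergy φ hφe, hφE])) ?_
    have : Nonempty {ψ : V → ℝ // gradSq ψ s(x, y) = 1} := ⟨⟨φ, hφe⟩⟩
    refine le_ciInf fun ψ => ?_
    obtain ⟨ψ, hψ⟩ := ψ
    rw [henergy ψ hψ]
    set t := ψ y - ψ x with ht
    have ht2 : t ^ 2 = 1 := by rw [← hψ, gradSq_mk]; ring
    have h0 : ∀ f, 0 ≤ Real.exp (Y f) * gradSq ψ f - 2 * t * (Real.exp (Y f) * gradProd φ ψ f) +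
        Real.exp (Y f) * gradSq φ f := fun f => by
      induction f using Sym2.ind with
      | h u v =>
        have e : Real.exp (Y s(u, v)) * gradSq ψ s(u, v) -
            2 * t * (Real.exp (Y s(u, v)) * gradProd φ ψ s(u, v)) +
            Real.exp (Y s(u, v)) * gradSq φ s(u, v) =
            Real.exp (Y s(u, v)) * ((ψ v - ψ u) - t * (φ v - φ u)) ^ 2 := by
          simp only [gradProd, Sym2.lift_mk, gradSq_mk]
          linear_combination (-Real.exp (Y s(u, v)) * (φ v - φ u) ^ 2) * ht2
        rw [e]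
        positivity
    have h1 := Finset.sum_nonneg (s := S) fun f _ => h0 f
    rw [Finset.sum_add_distrib, Finset.sum_sub_distrib, ← Finset.mul_sum, pair ψ, hφE, ← ht] at h1
    linear_combination h1 - (2 * c) * ht2
  rw [winMarg, hcond, hc]
  field_simp

end Vale.Agent.P143
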