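import Vale.Agent.P143.Energy
import Vale.Agent.P143.Defs
import Vale.Agent.P143.Flow
import Vale.Agent.P143.Kirchhoff
import Vale.Agent.P143.FiniteLaw
import Vale.Agent.P143.EdgeNoise

/-!
The random edge set read off from the long-time signs of the flow, and the proof that it has
the law of the free uniform spanning forest.
-/

namespace Vale.Agent.P143

open MeasureTheory ProbabilityTheory Filter Topology

variable {V V' : Type*}

theorem isDrift_marg [Countable V] (A : Sym2 V → Bool) : IsDrift (marg A) where
  mem _ _ := marg_mem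
  meas e := (measurable_marg e).comp (measurable_const.prodMk measurable_id)
  lip _ _ _ _ h := marg_lipschitz h

theorem isDrift_winMarg [Countable V] (A : Sym2 V → Bool) (S : Finset (Sym2 V)) :
    IsDrift (winMarg A S) where
  mem _ _ := winMarg_mem
  meas e := by
    have := (measurable_winCond S e).comp
      ((measurable_const (a := A)).prodMk (measurable_id : Measurable fun Y : Sym2 V → ℝ => Y))
    unfold winMarg
    exact (Real.measurable_exp.comp (measurable_pi_apply e)).div this
  lip _ _ _ _ h := winMarg_lipschitz h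

/-- Centred flow at integer time `k`. -/
noncomputable def centred (A : Sym2 V → Bool) (U : V → unitInterval) (k : ℕ) (e : Sym2 V) : ℝ :=
  flow (marg A) (edgeNoise A U) (k : ℝ) e - (k : ℝ) / 2

/-- The factor map: the selected pairs at which the centred flow is eventually positive. -/
noncomputable def forestMap (A : Sym2 V → Bool) (U : V → unitInterval) : Sym2 V → Bool :=
  fun e =>
    haveI := Classical.propDecidable (A e = true ∧ ∃ K : ℕ, ∀ k ≥ K, 0 < centred A U k e)
    decide (A e = true ∧ ∃ K : ℕ, ∀ k ≥ K, 0 < centred A U k e)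

theorem forestMap_eq_true {A : Sym2 V → Bool} {U : V → unitInterval} {e : Sym2 V} :
    forestMap A U e = true ↔ (A e = true ∧ ∃ K : ℕ, ∀ k ≥ K, 0 < centred A U k e) := by
  simp [forestMap]

theorem measurable_centred [Countable V] (k : ℕ) (e : Sym2 V) :
    Measurable fun p : (Sym2 V → Bool) × (V → unitInterval) => centred p.1 p.2 k e := by
  unfold centred
  refine (measurable_flow (fun f => ?_) measurable_edgeNoise _ e).sub_const _
  exact (measurable_marg f).comp
    ((measurable_fst.comp measurable_fst).prodMk measurable_snd)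

theorem measurable_forestMap [Countable V] :
    Measurable fun p : (Sym2 V → Bool) × (V → unitInterval) => forestMap p.1 p.2 := by
  refine measurable_pi_lambda _ fun e => measurable_to_bool ?_
  have h : (fun p : (Sym2 V → Bool) × (V → unitInterval) => forestMap p.1 p.2 e) ⁻¹' {true} =
      {p | p.1 e = true} ∩ ⋃ K : ℕ, ⋂ k : ℕ, ⋂ _ : K ≤ k, {p | 0 < centred p.1 p.2 k e} := by
    ext p
    simp [forestMap_eq_true]
  rw [h]
  refine (measurableSet_eq_fun ((measurable_pi_apply e).comp measurable_fst)
    measurable_const).inter (MeasurableSet.iUnion fun K => MeasurableSet.iInter fun k =>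
      MeasurableSet.iInter fun _ => measurableSet_lt measurable_const (measurable_centred k e))

theorem forestMap_map (σ : V ≃ V') (A : Sym2 V' → Bool) (U : V' → unitInterval) (e : Sym2 V) :
    forestMap (A ∘ Sym2.map σ) (U ∘ σ) e = forestMap A U (Sym2.map σ e) := by
  have hN : edgeNoise (A ∘ Sym2.map σ) (U ∘ σ) = edgeNoise A U ∘ Sym2.map σ :=
    funext fun f => edgeNoise_map σ A U f
  have h : ∀ k, centred (A ∘ Sym2.map σ) (U ∘ σ) k e = centred A U k (Sym2.map σ e) := fun k => by
    simp only [centred]
    rw [hN, flow_map (Sym2.map σ) (fun Y f => marg_map σ A Y f)]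
  rw [Bool.eq_iff_iff, forestMap_eq_true, forestMap_eq_true]
  simp only [Function.comp_apply, h]

/-! ### The law -/

/-- Probability of a Gaussian deviation of size `k / 2 - 1`. -/
noncomputable def devProb (k : ℕ) : ℝ :=
  (gaussianReal 0 1).real {x | (k : ℝ) / 2 - 1 ≤ |x|}

theorem summable_devProb : Summable devProb := by
  have hg : Summable fun k : ℕ => 2 * Real.exp (3 / 2) * Real.exp (-1 / 2) ^ k :=
    (summable_geometric_of_lt_one (Real.exp_pos _).le
      (Real.exp_lt_one_iff.2 (by norm_num))).mul_left _
  refine Summable.of_nonneg_of_le (fun k => measureReal_nonneg) (fun k => ?_) hg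
  set a : ℝ := (k : ℝ) / 2 - 1
  have h1 := measure_ge_le_exp_mul_mgf (μ := gaussianReal 0 1) (X := id) a zero_le_one
    (integrable_exp_mul_gaussianReal 1)
  have h2 := measure_le_le_exp_mul_mgf (μ := gaussianReal 0 1) (X := id) (-a)
    (by norm_num : (-1 : ℝ) ≤ 0) (integrable_exp_mul_gaussianReal (-1))
  rw [mgf_id_gaussianReal] at h1 h2
  have hsub : {x : ℝ | a ≤ |x|} ⊆ {x | a ≤ id x} ∪ {x | id x ≤ -a} := fun x (hx : a ≤ |x|) => by
    rcases le_abs.1 hx with h | h
    · exact Or.inl h
    · exact Or.inr (show x ≤ -a by linarith)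
  calc devProb k ≤ (gaussianReal 0 1).real ({x | a ≤ id x} ∪ {x | id x ≤ -a}) :=
        measureReal_mono hsub
    _ ≤ _ := measureReal_union_le _ _
    _ ≤ _ := add_le_add h1 h2
    _ = _ := by
      simp only [← Real.exp_add, ← Real.exp_nat_mul, mul_assoc, NNReal.coe_one, zero_mul, zero_add,
        a]
      ring_nf

theorem winMarg_congr {A : Sym2 V → Bool} {S : Finset (Sym2 V)} {Y Y' : Sym2 V → ℝ}
    (h : ∀ f ∈ S, Y f = Y' f) {e : Sym2 V} (he : e ∈ S) :
    winMarg A S Y e = winMarg A S Y' e := by
  simp only [winMarg, winCond_congr (fun _ _ => rfl) h (h e he), h e he]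

theorem flow_window_congr {A : Sym2 V → Bool} {S : Finset (Sym2 V)} {N N' : Sym2 V → ℝ}
    (h : ∀ f ∈ S, N f = N' f) (s : ℝ) {e : Sym2 V} (he : e ∈ S) :
    flow (winMarg A S) N s e = flow (winMarg A S) N' s e := by
  have hp : ∀ j, ∀ (s : ℝ), ∀ e ∈ S,
      picard (winMarg A S) N j s e = picard (winMarg A S) N' j s e := by
    intro j
    induction j with
    | zero => exact fun _ e he => h e he
    | succ j ih =>
      intro s e he
      simp only [picard, h e he]
      congr 2
      funext τ
      exact winMarg_congr (fun f hf => by simp [drive, ih τ f hf]) he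
  simp only [flow, h e he, hp _ s e he]

theorem edgeSet_finite_of_verts {G : SimpleGraph V} {H : G.Subgraph} (hfin : H.verts.Finite) :
    H.edgeSet.Finite := by
  refine ((hfin.prod hfin).image fun p : V × V => s(p.1, p.2)).subset ?_
  intro f hf
  induction f using Sym2.ind with
  | h x y => exact ⟨(x, y), ⟨H.edge_vert hf, H.edge_vert (SimpleGraph.Subgraph.Adj.symm hf)⟩, rfl⟩

theorem abs_real_sub_le {α : Type*} {m : MeasurableSpace α} (P : Measure α) [IsFiniteMeasure P]
    {s t u : Set α} (h1 : s ⊆ t ∪ u) (h2 : t ⊆ s ∪ u) : |P.real s - P.real t| ≤ P.real u := by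
  have a := (measureReal_mono (μ := P) h1).trans (measureReal_union_le t u)
  have b := (measureReal_mono (μ := P) h2).trans (measureReal_union_le s u)
  rw [abs_le]
  constructor <;> linarith

section Law

variable [Countable V] {G : SimpleGraph V}

instance : IsProbabilityMeasure (labelLaw V) := by
  unfold labelLaw; infer_instance

theorem measurable_edgeNoise_fixed (A : Sym2 V → Bool) (f : Sym2 V) :
    Measurable fun U : V → unitInterval => edgeNoise A U f :=
  (measurable_edgeNoise f).comp ((measurable_const (a := A)).prodMk measurable_id)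

theorem measurable_centred_fixed (A : Sym2 V → Bool) (k : ℕ) (f : Sym2 V) :
    Measurable fun U : V → unitInterval => centred A U k f := by
  have h1 : Measurable fun U : V → unitInterval => (A, U) := measurable_const.prodMk measurable_id
  have h2 := (measurable_centred k f).comp h1
  simpa only [Function.comp_def] using h2

/-- The centred flow in the window `S`. -/
noncomputable def winCentred (A : Sym2 V → Bool) (S : Finset (Sym2 V)) (U : V → unitInterval)
    (k : ℕ) (e : Sym2 V) : ℝ :=
  flow (winMarg A S) (edgeNoise A U) (k : ℝ) e - (k : ℝ) / 2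

theorem measurable_winCentred (A : Sym2 V → Bool) (S : Finset (Sym2 V)) (k : ℕ) (e : Sym2 V) :
    Measurable fun U : V → unitInterval => winCentred A S U k e := by
  refine (measurable_flow (fun f => ((isDrift_winMarg A S).meas f).comp measurable_snd)
    (fun f => measurable_edgeNoise_fixed A f) _ e).sub_const _

open scoped Classical in
/-- Tree indicators as vectors indexed by the window. -/
noncomputable def treeVec {H : G.Subgraph} (S : Finset (Sym2 V))
    (trees : Finset G.Subgraph) (_h : ↑trees = spanningTrees H) : trees → S → ℝ :=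
  fun T f => if (f : Sym2 V) ∈ T.1.edgeSet then 1 else 0

theorem window_law (hlf : ∀ v, (G.neighborSet v).Finite) {H : G.Subgraph} (hfin : H.verts.Finite)
    (hconn : H.Connected) {S : Finset (Sym2 V)} (hS : ↑S = H.edgeSet)
    {trees : Finset G.Subgraph} (htrees : ↑trees = spanningTrees H) [Nonempty trees] (k : ℕ) :
    (labelLaw V).map
        (fun U (f : S) => flow (winMarg (edgeCode G) S) (edgeNoise (edgeCode G) U) (k : ℝ) f) =
      mixLaw (treeVec S trees htrees) (k : ℝ) := by
  classical
  set A := edgeCode G
  have hA : LocFin A := fun v => by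
    refine ((hlf v).image fun w => s(v, w)).subset ?_
    rintro f ⟨hf, hv⟩
    rw [edgeCode_eq_true] at hf
    obtain ⟨w, rfl⟩ := hv
    exact ⟨w, hf, rfl⟩
  have hdiag : ∀ f, A f = true → ¬ f.IsDiag := fun f hf =>
    G.not_isDiag_of_mem_edgeSet ((edgeCode_eq_true G).1 hf)
  have hSA : ∀ f ∈ S, A f = true := fun f hf =>
    (edgeCode_eq_true G).2 (H.edgeSet_subset (hS ▸ (Finset.mem_coe.2 hf)))
  let ext : (S → ℝ) → Sym2 V → ℝ := fun N f => if h : f ∈ S then N ⟨f, h⟩ else 0
  let z : (S → ℝ) → ℝ → S → ℝ := fun N s f => flow (winMarg A S) (ext N) s f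
  have hzm : Measurable fun N => z N (k : ℝ) := by
    refine measurable_pi_lambda _ fun f => ?_
    refine measurable_flow (fun g => ((isDrift_winMarg A S).meas g).comp measurable_snd)
      (fun g => ?_) _ _
    by_cases h : g ∈ S
    · simpa [ext, h] using measurable_pi_apply (⟨g, h⟩ : S)
    · simp [ext, h]
  have hz : (fun U (f : S) => flow (winMarg A S) (edgeNoise A U) (k : ℝ) f) =
      (fun N => z N (k : ℝ)) ∘ fun U (f : S) => edgeNoise A U f := by
    funext U f
    exact flow_window_congr (fun g hg => by simp [ext, hg]) _ f.2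
  have hNm : Measurable fun U (f : S) => edgeNoise A U f :=
    measurable_pi_lambda _ fun f => measurable_edgeNoise_fixed A f
  rw [hz, ← Measure.map_map hzm hNm, edgeNoise_law hA hdiag S hSA]
  refine flow_law _ (fun T f => ?_) k.cast_nonneg z hzm
    (fun N f => (isDrift_winMarg A S).continuousOn_flow _ _) (fun N f s hs => ?_)
  · simp only [treeVec]; split_ifs <;> simp
  have h0 := (isDrift_winMarg A S).flow_eq (N := ext N) (f : Sym2 V) hs.1
  simp only [ext, f.2, dite_true] at h0
  refine h0.trans ?_
  congr 2
  funext τ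
  rw [winMarg_eq_treeMarginal hfin hconn S hS _ _ f.2 trees htrees]
  have hw : ∀ T : trees, tiltWeight (treeVec S trees htrees) τ (z N τ) T =
      treeWeight S (drive τ (flow (winMarg A S) (ext N) τ)) T.1 := by
    intro T
    simp only [tiltWeight, treeWeight, treeVec]
    congr 1
    rw [← Finset.sum_attach S]
    refine Finset.sum_congr rfl fun g _ => ?_
    split_ifs <;> simp [drive, z, ext]
  simp only [tiltMean, hw, treeVec]
  rw [← Finset.sum_coe_sort trees, ← Finset.sum_coe_sort trees]
  congr 1
  refine Finset.sum_congr rfl fun T _ => ?_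
  split_ifs <;> simp [ext]

theorem mixLaw_real {ι Ω : Type*} [Fintype ι] [Fintype Ω] [Nonempty Ω] (X : Ω → ι → ℝ) (T : ℝ)
    {P : Set (ι → ℝ)} (hP : MeasurableSet P) :
    (mixLaw X T).real P = (∑ ω, (Measure.pi fun _ : ι => gaussianReal 0 1).real
      {N | (fun i => T * X ω i + N i) ∈ P}) / Fintype.card Ω := by
  have hm : ∀ ω, Measurable fun N : ι → ℝ => fun i => T * X ω i + N i := fun ω => by fun_prop
  have heach : ∀ ω, ((Measure.pi fun _ : ι => gaussianReal 0 1).map
      (fun N i => T * X ω i + N i)) P = (Measure.pi fun _ : ι => gaussianReal 0 1)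
        {N | (fun i => T * X ω i + N i) ∈ P} := fun ω => Measure.map_apply (hm ω) hP
  simp only [mixLaw, measureReal_def, Measure.smul_apply, Measure.coe_finsetSum, Finset.sum_apply,
    heach, smul_eq_mul, ENNReal.toReal_mul, ENNReal.toReal_inv, ENNReal.toReal_natCast]
  rw [ENNReal.toReal_sum (fun ω _ => measure_ne_top _ _), div_eq_inv_mul]

theorem pi_gauss_dev {ι : Type*} [Fintype ι] (i : ι) (k : ℕ) :
    (Measure.pi fun _ : ι => gaussianReal 0 1).real {N | (k : ℝ) / 2 - 1 ≤ |N i|} = devProb k := by
  have hs : MeasurableSet {x : ℝ | (k : ℝ) / 2 - 1 ≤ |x|} :=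
    measurableSet_le measurable_const continuous_abs.measurable
  rw [devProb, ← (measurePreserving_eval (fun _ : ι => gaussianReal 0 1) i).measureReal_preimage
    hs.nullMeasurableSet]
  rfl

/-- Signs of the window flow at time `k` reproduce the uniform spanning tree up to the Gaussian
deviation probability, and are rarely near zero. -/
theorem window_estimates (hlf : ∀ v, (G.neighborSet v).Finite) {H : G.Subgraph}
    (hfin : H.verts.Finite) (hconn : H.Connected) {S : Finset (Sym2 V)} (hS : ↑S = H.edgeSet)
    (F : Finset (Sym2 V)) (hF : F ⊆ S) (ω : Sym2 V → Bool) (k : ℕ) :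
    |(labelLaw V).real {U | ∀ f ∈ F, (0 < winCentred (edgeCode G) S U k f ↔ ω f = true)} -
        ustProb H F ω| ≤ F.card * devProb k ∧
      ∀ e ∈ S, (labelLaw V).real {U | |winCentred (edgeCode G) S U k e| < 1} ≤ devProb k := by
  classical
  obtain ⟨htf, htn⟩ := spanningTrees_finite_nonempty hfin hconn
  set trees := htf.toFinset
  have htrees : ↑trees = spanningTrees H := htf.coe_toFinset
  haveI : Nonempty trees := by
    obtain ⟨T, hT⟩ := htn
    exact ⟨⟨T, by simpa [trees] using hT⟩⟩
  have hlaw := window_law hlf hfin hconn hS htrees k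
  have hmeas : Measurable fun U (f : S) =>
      flow (winMarg (edgeCode G) S) (edgeNoise (edgeCode G) U) (k : ℝ) f := by
    refine measurable_pi_lambda _ fun f => ?_
    simpa [winCentred] using (measurable_winCentred (edgeCode G) S k f).add_const ((k : ℝ) / 2)
  have hcard : (0 : ℝ) < Fintype.card trees := by exact_mod_cast Fintype.card_pos
  have transfer : ∀ {P : Set (S → ℝ)}, MeasurableSet P →
      (labelLaw V).real ((fun U (f : S) =>
        flow (winMarg (edgeCode G) S) (edgeNoise (edgeCode G) U) (k : ℝ) f) ⁻¹' P) =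
        (∑ T : trees, (Measure.pi fun _ : S => gaussianReal 0 1).real
          {N | (fun i => (k : ℝ) * treeVec S trees htrees T i + N i) ∈ P}) /
            Fintype.card trees := by
    intro P hP
    rw [← map_measureReal_apply hmeas hP, hlaw, mixLaw_real _ _ hP]
  constructor
  · set P : Set (S → ℝ) := {y | ∀ f : S, f.1 ∈ F → (0 < y f - (k : ℝ) / 2 ↔ ω f.1 = true)}
      with hPdef
    have hP : MeasurableSet P := by
      have : P = ⋂ f : S, ⋂ _ : f.1 ∈ F, {y | (0 < y f - (k : ℝ) / 2 ↔ ω f.1 = true)} := by
        ext y; simp [hPdef]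
      rw [this]
      refine MeasurableSet.iInter fun f => MeasurableSet.iInter fun _ => ?_
      have hm : Measurable fun y : S → ℝ => y f - (k : ℝ) / 2 :=
        (measurable_pi_apply f).sub_const _
      exact MeasurableSet.iff (measurableSet_lt measurable_const hm) (MeasurableSet.const _)
    have hpre : {U | ∀ f ∈ F, (0 < winCentred (edgeCode G) S U k f ↔ ω f = true)} =
        (fun U (f : S) =>
          flow (winMarg (edgeCode G) S) (edgeNoise (edgeCode G) U) (k : ℝ) f) ⁻¹' P := by
      ext U
      exact ⟨fun h f hf => h f.1 hf, fun h f hf => h ⟨f, hF hf⟩ hf⟩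
    set match' : trees → ℝ := fun T =>
      if ∀ f ∈ F, (f ∈ T.1.edgeSet ↔ ω f = true) then 1 else 0 with hmatch
    have hust : ustProb H F ω = (∑ T : trees, match' T) / Fintype.card trees := by
      have h1 : {T | T ∈ spanningTrees H ∧ ∀ f ∈ F, (f ∈ T.edgeSet ↔ ω f = true)} =
          ↑(trees.filter fun T => ∀ f ∈ F, (f ∈ T.edgeSet ↔ ω f = true)) := by
        ext T; simp [trees]
      rw [ustProb, h1, Set.ncard_coe_finset, ← htrees, Set.ncard_coe_finset, hmatch,
        Finset.sum_coe_sort trees (fun T => if ∀ f ∈ F, (f ∈ T.edgeSet ↔ ω f = true) then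
          (1 : ℝ) else 0), Fintype.card_coe, Finset.sum_boole]
    have hbound : ∀ T : trees, |(Measure.pi fun _ : S => gaussianReal 0 1).real
        {N | (fun i => (k : ℝ) * treeVec S trees htrees T i + N i) ∈ P} - match' T| ≤
          F.card * devProb k := by
      intro T
      set bad : Set (S → ℝ) := ⋃ f ∈ F.attach, {N | (k : ℝ) / 2 - 1 ≤ |N ⟨f.1, hF f.2⟩|}
      have hbad : (Measure.pi fun _ : S => gaussianReal 0 1).real bad ≤ F.card * devProb k := by
        refine (measureReal_biUnion_finset_le _ _).trans_eq ?_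
        rw [Finset.sum_congr rfl (fun f _ => pi_gauss_dev _ k), Finset.sum_const,
          Finset.card_attach, nsmul_eq_mul]
      have hgood : ∀ N : S → ℝ, N ∉ bad →
          ((fun i => (k : ℝ) * treeVec S trees htrees T i + N i) ∈ P ↔
            ∀ f ∈ F, (f ∈ T.1.edgeSet ↔ ω f = true)) := by
        intro N hN
        simp only [bad, Set.mem_iUnion, not_exists, Finset.mem_attach, forall_const] at hN
        have hsign : ∀ f : S, f.1 ∈ F →
            (0 < (k : ℝ) * treeVec S trees htrees T f + N f - (k : ℝ) / 2 ↔
              f.1 ∈ T.1.edgeSet) := by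
          intro f hf
          have h2 : |N f| < (k : ℝ) / 2 - 1 := lt_of_not_ge (hN ⟨f.1, hf⟩)
          rw [abs_lt] at h2
          simp only [treeVec]
          split_ifs with h <;> constructor <;> intro h' <;>
            first | exact h | linarith | exact absurd h' h
        exact ⟨fun h f hf => (hsign ⟨f, hF hf⟩ hf).symm.trans (h ⟨f, hF hf⟩ hf),
          fun h f hf => (hsign f hf).trans (h f.1 hf)⟩
      by_cases hT : ∀ f ∈ F, (f ∈ T.1.edgeSet ↔ ω f = true)
      · have := abs_real_sub_le (Measure.pi fun _ : S => gaussianReal 0 1)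
          (s := {N | (fun i => (k : ℝ) * treeVec S trees htrees T i + N i) ∈ P}) (t := Set.univ)
          (u := bad) (fun N _ => Or.inl trivial) (fun N _ => ?_)
        · rw [show match' T = 1 from if_pos hT]
          simpa using this.trans hbad
        · by_cases hN : N ∈ bad
          · exact Or.inr hN
          · exact Or.inl ((hgood N hN).2 hT)
      · have := abs_real_sub_le (Measure.pi fun _ : S => gaussianReal 0 1)
          (s := {N | (fun i => (k : ℝ) * treeVec S trees htrees T i + N i) ∈ P}) (t := ∅)
          (u := bad) (fun N hN => ?_) (Set.empty_subset _)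
        · rw [show match' T = 0 from if_neg hT]
          simpa using this.trans hbad
        · by_cases hN' : N ∈ bad
          · exact Or.inr hN'
          · exact absurd ((hgood N hN').1 hN) hT
    rw [hpre, transfer hP, hust, ← sub_div, ← Finset.sum_sub_distrib, abs_div,
      abs_of_pos hcard, div_le_iff₀ hcard]
    refine (Finset.abs_sum_le_sum_abs _ _).trans ((Finset.sum_le_sum fun T _ => hbound T).trans_eq ?_)
    simp [mul_comm]
  · intro e he
    set P : Set (S → ℝ) := {y | |y ⟨e, he⟩ - (k : ℝ) / 2| < 1}
    have hP : MeasurableSet P := measurableSet_lt (by fun_prop) measurable_const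
    have hpre : {U | |winCentred (edgeCode G) S U k e| < 1} = (fun U (f : S) =>
        flow (winMarg (edgeCode G) S) (edgeNoise (edgeCode G) U) (k : ℝ) f) ⁻¹' P := rfl
    rw [hpre, transfer hP, div_le_iff₀ hcard]
    refine (Finset.sum_le_sum (g := fun _ => devProb k) fun T _ => ?_).trans_eq (by simp [mul_comm])
    refine le_trans (measureReal_mono (fun N hN => ?_)) (pi_gauss_dev (⟨e, he⟩ : S) k).le
    simp only [P, Set.mem_ofPred_eq, treeVec] at hN ⊢
    split_ifs at hN <;> rw [abs_lt] at hN <;> rcases abs_cases (N ⟨e, he⟩) with ⟨h, h'⟩ | ⟨h, h'⟩ <;>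
      rw [h] <;> linarith

omit [Countable V] in
theorem IsExhaustion.eventually_mem {H : ℕ → G.Subgraph} (hH : IsExhaustion G H) {f : Sym2 V}
    (hf : f ∈ G.edgeSet) : ∀ᶠ n in atTop, f ∈ (H n).edgeSet := by
  obtain ⟨m, hm⟩ := hH.2.2.2 f hf
  exact eventually_atTop.2 ⟨m, fun n hn => SimpleGraph.Subgraph.edgeSet_mono (hH.1 hn) hm⟩

/-- The centred flow is rarely near zero. -/
theorem centred_near_zero_le (hlf : ∀ v, (G.neighborSet v).Finite) {H : ℕ → G.Subgraph}
    (hH : IsExhaustion G H) (S : ℕ → Finset (Sym2 V)) (hS : ∀ n, ↑(S n) = (H n).edgeSet)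
    {e : Sym2 V} (he : ∀ᶠ n in atTop, e ∈ S n) (k : ℕ)
    (hconv : ∀ U : V → unitInterval, Tendsto (fun n => winCentred (edgeCode G) (S n) U k e) atTop
      (𝓝 (centred (edgeCode G) U k e))) :
    (labelLaw V).real {U | |centred (edgeCode G) U k e| ≤ 1 / 2} ≤ devProb k := by
  classical
  set A := edgeCode G
  set P := labelLaw V
  obtain ⟨n₀, hn₀⟩ := eventually_atTop.1 he
  let B : ℕ → Set (V → unitInterval) := fun m =>
    {U | ∀ n ≥ m, |winCentred A (S n) U k e| < 1}
  have hsub : {U | |centred A U k e| ≤ 1 / 2} ⊆ ⋃ m, B m := by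
    intro U (hU : |centred A U k e| ≤ 1 / 2)
    obtain ⟨m, hm⟩ := eventually_atTop.1
      ((hconv U).abs.eventually (gt_mem_nhds (show |centred A U k e| < 1 by linarith)))
    exact Set.mem_iUnion.2 ⟨m, hm⟩
  have hmono : Monotone B := fun a b hab U hU n hn => hU n (hab.trans hn)
  refine (measureReal_mono hsub).trans ?_
  refine le_of_tendsto ((ENNReal.tendsto_toReal (measure_ne_top P _)).comp
    (tendsto_measure_iUnion_atTop hmono)) ?_
  refine Eventually.of_forall fun m => ?_
  refine (measureReal_mono (fun U (hU : ∀ n ≥ m, |winCentred A (S n) U k e| < 1) => hU (max m n₀) (le_max_left _ _))).trans ?_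
  exact (window_estimates hlf (hH.2.1 _).1 (hH.2.1 _).2 (hS _) ∅ (Finset.empty_subset _) (fun _ => false) k).2 e
    (hn₀ _ (le_max_right _ _))

/-- Once the centred flow stays away from zero from time `K` on, its sign is constant. -/
theorem forestMap_iff_of_stable {A : Sym2 V → Bool} {U : V → unitInterval} {f : Sym2 V}
    (hf : A f = true) {K : ℕ} (hbig : ∀ j, 1 / 2 < |centred A U (j + K) f|) :
    (forestMap A U f = true ↔ 0 < centred A U K f) ∧ centred A U K f ≠ 0 := by
  have hstep : ∀ j, |centred A U (j + K + 1) f - centred A U (j + K) f| ≤ 1 / 2 := fun j => by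
    have := (isDrift_marg A).flow_diff (N := edgeNoise A U) f (Nat.cast_nonneg (j + K))
      (show ((j + K : ℕ) : ℝ) ≤ ((j + K + 1 : ℕ) : ℝ) by exact_mod_cast Nat.le_succ _)
    simp only [centred, abs_le]
    push_cast at this ⊢
    constructor <;> linarith [this.1, this.2]
  have hsame : ∀ j, (0 < centred A U (j + K) f ↔ 0 < centred A U K f) := by
    intro j
    induction j with
    | zero => simp
    | succ j ih =>
      rw [← ih, show j + 1 + K = j + K + 1 by omega]
      have a := hbig j
      have b := hbig (j + 1)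
      rw [show j + 1 + K = j + K + 1 by omega] at b
      have c := abs_le.1 (hstep j)
      constructor <;> intro h <;>
        rcases lt_abs.1 a with a | a <;> rcases lt_abs.1 b with b | b <;> linarith
  refine ⟨⟨fun h => ?_, fun h => forestMap_eq_true.2
    ⟨hf, K, fun k hk => ?_⟩⟩, fun h => ?_⟩
  · obtain ⟨-, K', hK'⟩ := forestMap_eq_true.1 h
    exact (hsame K').1 (hK' _ (Nat.le_add_right _ _))
  · obtain ⟨j, rfl⟩ : ∃ j, k = j + K := ⟨k - K, by omega⟩
    exact (hsame j).2 h
  · have := hbig 0; rw [zero_add, h, abs_zero] at this; linarith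

/-- Measurable sets in which each point eventually fails to lie have vanishing measure. -/
theorem tendsto_measureReal_zero_of_eventually {α : Type*} {m : MeasurableSpace α} (P : Measure α)
    [IsFiniteMeasure P] (D : ℕ → Set α) (hD : ∀ n, MeasurableSet (D n))
    (hev : ∀ x, ∀ᶠ n in atTop, x ∉ D n) : Tendsto (fun n => P.real (D n)) atTop (𝓝 0) := by
  have h0 : Tendsto (fun n => P (⋃ m, D (n + m))) atTop (𝓝 0) := by
    have hanti : Antitone fun n => ⋃ m, D (n + m) := by
      intro a b hab U hU
      obtain ⟨m, hm⟩ := Set.mem_iUnion.1 hU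
      exact Set.mem_iUnion.2 ⟨b - a + m, by rwa [show a + (b - a + m) = b + m by omega]⟩
    have hempty : ⋂ n, ⋃ m, D (n + m) = ∅ := by
      refine Set.eq_empty_of_forall_notMem fun U hU => ?_
      obtain ⟨n, hn⟩ := eventually_atTop.1 (hev U)
      obtain ⟨m, hm⟩ := Set.mem_iUnion.1 (Set.mem_iInter.1 hU n)
      exact hn _ (Nat.le_add_right _ _) hm
    have := tendsto_measure_iInter_atTop (μ := P)
      (fun n => (MeasurableSet.iUnion fun m => hD (n + m)).nullMeasurableSet) hanti
      ⟨0, measure_ne_top _ _⟩
    simpa [hempty, Function.comp_def] using this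
  have h1 := (ENNReal.tendsto_toReal ENNReal.zero_ne_top).comp h0
  refine squeeze_zero (fun _ => measureReal_nonneg) (fun n => ?_) h1
  exact ENNReal.toReal_mono (measure_ne_top _ _) (measure_mono fun U hU =>
    Set.mem_iUnion.2 ⟨0, by simpa using hU⟩)

/-- The factor map has the law of the free uniform spanning forest. -/
theorem isFUSF_forestMap (hlf : ∀ v, (G.neighborSet v).Finite) :
    IsFUSF G ((labelLaw V).map (forestMap (edgeCode G))) := by
  classical
  have hmap : Measurable (forestMap (edgeCode G) : (V → unitInterval) → Sym2 V → Bool) :=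
    measurable_forestMap.comp (measurable_const.prodMk measurable_id)
  refine ⟨Measure.isProbabilityMeasure_map hmap.aemeasurable, ?_, ?_⟩
  · refine (ae_map_iff hmap.aemeasurable ?_).2 (Eventually.of_forall fun U f h =>
      (edgeCode_eq_true G).1 (forestMap_eq_true.1 h).1)
    simp only [Set.ofPred_forall]
    refine MeasurableSet.iInter fun f => ?_
    by_cases hf : f ∈ G.edgeSet
    · simp [hf]
    · simpa [hf] using measurableSet_eq_fun (measurable_pi_apply f) (measurable_const (a := false))
  intro H hH F hF ω
  set A := edgeCode G with hAdef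
  set P := labelLaw V
  have hA : LocFin A := fun v => by
    refine ((hlf v).image fun w => s(v, w)).subset ?_
    rintro f ⟨hf, hv⟩
    rw [edgeCode_eq_true] at hf
    obtain ⟨w, rfl⟩ := hv
    exact ⟨w, hf, rfl⟩
  let S : ℕ → Finset (Sym2 V) := fun n => (edgeSet_finite_of_verts (hH.2.1 n).1).toFinset
  have hS : ∀ n, ↑(S n) = (H n).edgeSet := fun n => Set.Finite.coe_toFinset _
  have hT : ∀ f, A f = true → ∀ᶠ n in atTop, f ∈ S n := fun f hf =>
    (hH.eventually_mem ((edgeCode_eq_true G).1 hf)).mono fun n hn => by simpa [S] using hn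
  have hconv : ∀ (U : V → unitInterval) (k : ℕ) (e : Sym2 V),
      Tendsto (fun n => winCentred A (S n) U k e) atTop (𝓝 (centred A U k e)) := fun U k e =>
    (tendsto_flow (fun n => isDrift_winMarg A (S n)) (isDrift_marg A)
      (fun Yn Y D hY hD e => tendsto_winMarg hA hT hY hD) _ k.cast_nonneg e).sub_const _
  have hFS : ∀ᶠ n in atTop, F ⊆ S n :=
    ((Filter.eventually_all_finset F).2 fun f hf =>
      hT f ((edgeCode_eq_true G).2 (hF hf))).mono fun n hn f hf => hn f hf
  have hnear : ∀ e ∈ F, ∀ k : ℕ, P.real {U | |centred A U k e| ≤ 1 / 2} ≤ devProb k :=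
    fun e he k => centred_near_zero_le hlf hH S hS (hFS.mono fun n hn => hn he) k
      fun U => hconv U k e
  -- main limit
  have hpat : MeasurableSet {x : Sym2 V → Bool | ∀ f ∈ F, x f = ω f} := by
    simp only [Set.ofPred_forall]
    exact MeasurableSet.iInter fun f => MeasurableSet.iInter fun _ =>
      measurableSet_eq_fun (measurable_pi_apply f) measurable_const
  rw [map_measureReal_apply hmap hpat, Metric.tendsto_nhds]
  intro ε hε
  have htail := tendsto_sum_nat_add devProb
  have hdev := summable_devProb.tendsto_atTop_zero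
  obtain ⟨K, hK1, hK2⟩ : ∃ K : ℕ, (F.card : ℝ) * devProb K < ε / 3 ∧
      (F.card : ℝ) * ∑' j, devProb (j + K) < ε / 3 := by
    have h1 := (hdev.const_mul (F.card : ℝ)).eventually
      (gt_mem_nhds (show (F.card : ℝ) * 0 < ε / 3 by rw [mul_zero]; linarith))
    have h2 := (htail.const_mul (F.card : ℝ)).eventually
      (gt_mem_nhds (show (F.card : ℝ) * 0 < ε / 3 by rw [mul_zero]; linarith))
    exact (h1.and h2).exists
  let bad : Set (V → unitInterval) := ⋃ f ∈ F, ⋃ j : ℕ, {U | |centred A U (j + K) f| ≤ 1 / 2}
  have hbad : P.real bad ≤ (F.card : ℝ) * ∑' j, devProb (j + K) := by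
    refine (measureReal_biUnion_finset_le _ _).trans ?_
    refine (Finset.sum_le_sum (g := fun _ => ∑' j, devProb (j + K)) fun f hf => ?_).trans_eq
      (by simp)
    have hsum : Summable fun j => devProb (j + K) := (summable_nat_add_iff K).2 summable_devProb
    rw [measureReal_def]
    refine ENNReal.toReal_le_of_le_ofReal (tsum_nonneg fun j => measureReal_nonneg) ?_
    have hnn : ∀ j, 0 ≤ devProb (j + K) := fun j => measureReal_nonneg
    rw [ENNReal.ofReal_tsum_of_nonneg hnn hsum]
    exact (measure_iUnion_le _).trans (ENNReal.tsum_le_tsum fun j =>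
      (ENNReal.le_ofReal_iff_toReal_le (measure_ne_top _ _) measureReal_nonneg).2 (hnear f hf _))
  let target : Set (V → unitInterval) := forestMap A ⁻¹' {x | ∀ f ∈ F, x f = ω f}
  let approx : ℕ → Set (V → unitInterval) := fun n =>
    {U | ∀ f ∈ F, (0 < winCentred A (S n) U K f ↔ ω f = true)}
  have hstable : ∀ U, U ∉ bad → ∀ f ∈ F,
      (forestMap A U f = true ↔ 0 < centred A U K f) ∧ centred A U K f ≠ 0 := by
    intro U hU f hf
    simp only [bad, Set.mem_iUnion, Set.mem_ofPred_eq, not_exists, not_le] at hU
    exact forestMap_iff_of_stable ((edgeCode_eq_true G).2 (hF hf)) fun j => hU f hf j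
  let dis : ℕ → Set (V → unitInterval) := fun n =>
    ((approx n \ target) ∪ (target \ approx n)) \ bad
  have hlimpt : ∀ U, ∀ᶠ n in atTop, U ∉ dis n := by
    intro U
    by_cases hU : U ∈ bad
    · exact Eventually.of_forall fun n h => h.2 hU
    have hsgn : ∀ᶠ n in atTop, ∀ f ∈ F,
        (0 < winCentred A (S n) U K f ↔ 0 < centred A U K f) := by
      refine (Filter.eventually_all_finset F).2 fun f hf => ?_
      rcases lt_or_gt_of_ne (hstable U hU f hf).2 with h | h
      · exact ((hconv U K f).eventually (gt_mem_nhds h)).mono fun n hn =>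
          iff_of_false (not_lt.2 hn.le) (not_lt.2 h.le)
      · exact ((hconv U K f).eventually (lt_mem_nhds h)).mono fun n hn => iff_of_true hn h
    refine hsgn.mono fun n hn => ?_
    have heq : U ∈ approx n ↔ U ∈ target := by
      simp only [approx, target, Set.mem_preimage, Set.mem_ofPred_eq]
      refine forall₂_congr fun f hf => ?_
      rw [hn f hf, ← (hstable U hU f hf).1]
      exact Bool.eq_iff_iff.symm
    rintro ⟨h | h, -⟩
    · exact h.2 (heq.1 h.1)
    · exact h.2 (heq.2 h.1)
  have hdismeas : ∀ n, MeasurableSet (dis n) := by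
    intro n
    have h1 : MeasurableSet (approx n) := by
      simp only [approx, Set.ofPred_forall]
      refine MeasurableSet.iInter fun f => MeasurableSet.iInter fun _ => ?_
      cases ω f
      · simpa [not_lt] using measurableSet_le (measurable_winCentred A (S n) K f)
          (measurable_const (a := (0 : ℝ)))
      · simpa using measurableSet_lt (measurable_const (a := (0 : ℝ)))
          (measurable_winCentred A (S n) K f)
    have h2 : MeasurableSet target := hmap hpat
    have h3 : MeasurableSet bad := Finset.measurableSet_biUnion _ fun f _ =>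
      MeasurableSet.iUnion fun j => measurableSet_le (measurable_centred_fixed A _ f).abs measurable_const
    exact ((h1.diff h2).union (h2.diff h1)).diff h3
  have hdis : Tendsto (fun n => P.real (dis n)) atTop (𝓝 0) :=
    tendsto_measureReal_zero_of_eventually P dis hdismeas hlimpt
  filter_upwards [hFS, hdis.eventually (gt_mem_nhds (show (0 : ℝ) < ε / 3 by linarith))] with n hn hd
  have he := (window_estimates hlf (hH.2.1 n).1 (hH.2.1 n).2 (hS n) F hn ω K).1
  have hclose : |P.real (approx n) - P.real target| ≤ P.real bad + P.real (dis n) := by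
    refine le_trans (abs_real_sub_le P (u := bad ∪ dis n) ?_ ?_) (measureReal_union_le _ _)
    · intro U hU
      by_cases h1 : U ∈ target
      · exact Or.inl h1
      · by_cases h2 : U ∈ bad
        · exact Or.inr (Or.inl h2)
        · exact Or.inr (Or.inr ⟨Or.inl ⟨hU, h1⟩, h2⟩)
    · intro U hU
      by_cases h1 : U ∈ approx n
      · exact Or.inl h1
      · by_cases h2 : U ∈ bad
        · exact Or.inr (Or.inl h2)
        · exact Or.inr (Or.inr ⟨Or.inr ⟨hU, h1⟩, h2⟩)
  rw [Real.dist_eq]
  calc |ustProb (H n) F ω - P.real target|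
      ≤ |ustProb (H n) F ω - P.real (approx n)| + |P.real (approx n) - P.real target| :=
        abs_sub_le _ _ _
    _ < ε := by rw [abs_sub_comm]; linarith

end Law

end Vale.Agent.P143
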