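import Vale.Agent.P143.Forest

/-!
The free uniform spanning forest is a factor of independent uniform labels: Cayley graphs, all
connected locally finite graphs with their automorphisms, and the relabelling-invariant version
on coded graphs.
-/

namespace Vale.Agent.P143

open MeasureTheory Filter Topology

universe u

variable {V : Type u}

theorem exists_exhaustion [Countable V] {G : SimpleGraph V} (hG : G.Connected) :
    ∃ H, IsExhaustion G H := by
  classical
  obtain ⟨v₀⟩ := hG.nonempty
  let W : V ⊕ G.Dart → G.Subgraph := fun i => match i with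
    | .inl v => (hG.preconnected v₀ v).some.toSubgraph
    | .inr d => ((hG.preconnected v₀ d.fst).some.concat d.adj).toSubgraph
  have hroot : ∀ i, v₀ ∈ (W i).verts := fun i => by
    cases i <;> exact SimpleGraph.Walk.start_mem_verts_toSubgraph _
  have hfin : ∀ i, (W i).verts.Finite := fun i => by
    cases i <;> simp only [W, SimpleGraph.Walk.verts_toSubgraph] <;> exact List.finite_toSet _
  have hconn : ∀ i, (W i).Connected := fun i => by
    cases i <;> exact SimpleGraph.Walk.toSubgraph_connected _
  have : Countable G.Dart := Function.Injective.countable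
    (SimpleGraph.Dart.toProd_injective (G := G))
  have : Nonempty (V ⊕ G.Dart) := ⟨.inl v₀⟩
  obtain ⟨enum, henum⟩ := exists_surjective_nat (V ⊕ G.Dart)
  let H : ℕ → G.Subgraph := fun n => Nat.rec (W (enum 0)) (fun k Hk => Hk ⊔ W (enum (k + 1))) n
  have hle : ∀ n, W (enum n) ≤ H n := fun n => by
    cases n with
    | zero => exact le_rfl
    | succ n => exact le_sup_right
  refine ⟨H, monotone_nat_of_le_succ fun n => le_sup_left, fun n => ?_, fun v => ?_, fun f hf => ?_⟩
  · suffices h : (H n).verts.Finite ∧ (H n).Connected ∧ v₀ ∈ (H n).verts from ⟨h.1, h.2.1⟩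
    induction n with
    | zero => exact ⟨hfin _, hconn _, hroot _⟩
    | succ n ih =>
      exact ⟨ih.1.union (hfin _), SimpleGraph.Subgraph.connected_sup ⟨ih.2.1.coe.preconnected⟩ ⟨(hconn _).coe.preconnected⟩
        ⟨v₀, ih.2.2, hroot _⟩, Or.inl ih.2.2⟩
  · obtain ⟨n, hn⟩ := henum (.inl v)
    refine ⟨n, (hle n).1 ?_⟩
    rw [hn]
    exact SimpleGraph.Walk.end_mem_verts_toSubgraph _
  · induction f using Sym2.ind with
    | h a b =>
      obtain ⟨n, hn⟩ := henum (.inr ⟨(a, b), hf⟩)
      refine ⟨n, SimpleGraph.Subgraph.edgeSet_mono (hle n) ?_⟩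
      rw [hn]
      simp [W]

theorem edgeCode_comp_iso {G : SimpleGraph V} (σ : G ≃g G) :
    edgeCode G ∘ Sym2.map σ = edgeCode G := by
  funext f
  rw [Function.comp_apply, Bool.eq_iff_iff, edgeCode_eq_true, edgeCode_eq_true]
  induction f using Sym2.ind with
  | h a b => exact σ.map_rel_iff

/-- The factor map of a fixed graph. -/
theorem exists_factor [Countable V] (G : SimpleGraph V) (hlf : ∀ v, (G.neighborSet v).Finite) :
    ∃ Φ : (V → unitInterval) → Sym2 V → Bool, Measurable Φ ∧
      (∀ (σ : G ≃g G) (U : V → unitInterval) (e : Sym2 V),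
        Φ (U ∘ σ) e = Φ U (e.map σ)) ∧
      IsFUSF G ((labelLaw V).map Φ) := by
  refine ⟨forestMap (edgeCode G),
    measurable_forestMap.comp (measurable_const.prodMk measurable_id), fun σ U e => ?_,
    isFUSF_forestMap hlf⟩
  have h := forestMap_map σ.toEquiv (edgeCode G) U e
  simp only [RelIso.coe_fn_toEquiv, edgeCode_comp_iso] at h
  exact h

theorem countable_of_closure_eq_top {Γ : Type u} [Group Γ] {S : Set Γ} (hS : S.Finite)
    (h : Subgroup.closure S = ⊤) : Countable Γ := by
  have : Countable S := hS.countable.to_subtype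
  have : Countable (FreeGroup S) :=
    Function.Surjective.countable (f := (FreeGroup.mk : List (S × Bool) → FreeGroup S))
      (Quot.mk_surjective)
  have hr : Function.Surjective (FreeGroup.lift ((↑) : S → Γ)) := by
    rw [← MonoidHom.range_eq_top, FreeGroup.range_lift_eq_closure, Subtype.range_coe, h]
  exact hr.countable

theorem mulCayley_neighborSet_finite {Γ : Type u} [Group Γ] {S : Set Γ} (hS : S.Finite) (v : Γ) :
    ((SimpleGraph.mulCayley S).neighborSet v).Finite := by
  refine ((hS.image fun g => v * g).union (hS.image fun g => v * g⁻¹)).subset ?_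
  intro w hw
  obtain ⟨-, g, hg, h | h⟩ := (SimpleGraph.mulCayley_adj' S v w).1 hw
  · exact Or.inl ⟨g, hg, h⟩
  · exact Or.inr ⟨g, hg, show v * g⁻¹ = w by rw [h, mul_inv_cancel_right]⟩

theorem mulCayley_connected {Γ : Type u} [Group Γ] {S : Set Γ}
    (h : Subgroup.closure S = ⊤) : (SimpleGraph.mulCayley S).Connected := by
  have hstep : ∀ a : Γ, ∀ g ∈ S, (SimpleGraph.mulCayley S).Reachable a (a * g) := by
    intro a g hg
    by_cases hag : a = a * g
    · rw [← hag]
    · exact SimpleGraph.Adj.reachable ((SimpleGraph.mulCayley_adj' S a (a * g)).2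
        ⟨hag, g, hg, Or.inl rfl⟩)
  have key : ∀ x ∈ Subgroup.closure S, ∀ a : Γ,
      (SimpleGraph.mulCayley S).Reachable a (a * x) := by
    intro x hx
    induction hx using Subgroup.closure_induction with
    | mem g hg => exact fun a => hstep a g hg
    | one => exact fun a => by rw [mul_one]
    | mul p q _ _ hp hq => exact fun a => by rw [← mul_assoc]; exact (hp a).trans (hq _)
    | inv p _ hp =>
      exact fun a => by
        have := (hp (a * p⁻¹)).symm
        rwa [inv_mul_cancel_right] at this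
  exact (SimpleGraph.connected_iff _).2 ⟨fun a b => by
    simpa using key (a⁻¹ * b) (by simp [h]) a, ⟨1⟩⟩

/-- Left translation as a graph automorphism of a Cayley graph. -/
def cayleyTranslate {Γ : Type u} [Group Γ] (S : Set Γ) (γ : Γ) :
    SimpleGraph.mulCayley S ≃g SimpleGraph.mulCayley S where
  toEquiv := Equiv.mulLeft γ
  map_rel_iff' := by intro a b; exact SimpleGraph.mulCayley_adj_mul_iff_right

/-- Everything together. -/
theorem fusf_factor_of_iid :
    (∀ (Γ : Type u) [Group Γ] (S : Set Γ), S.Finite → Subgroup.closure S = ⊤ →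
      (∃ H, IsExhaustion (SimpleGraph.mulCayley S) H) ∧
      ∃ Φ : (Γ → unitInterval) → Sym2 Γ → Bool, Measurable Φ ∧
        (∀ (γ : Γ) (U : Γ → unitInterval) (e : Sym2 Γ),
          Φ (fun x => U (γ * x)) e = Φ U (e.map (γ * ·))) ∧
        IsFUSF (SimpleGraph.mulCayley S) ((labelLaw Γ).map Φ)) ∧
    (∀ (V : Type u) [Countable V] (G : SimpleGraph V), G.Connected →
      (∀ v, (G.neighborSet v).Finite) →
      (∃ H, IsExhaustion G H) ∧
      ∃ Φ : (V → unitInterval) → Sym2 V → Bool, Measurable Φ ∧
        (∀ (σ : G ≃g G) (U : V → unitInterval) (e : Sym2 V),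
          Φ (U ∘ σ) e = Φ U (e.map σ)) ∧
        IsFUSF G ((labelLaw V).map Φ)) ∧
    (∃ Φ : (Sym2 ℕ → Bool) → (ℕ → unitInterval) → Sym2 ℕ → Bool,
      Measurable (fun p : (Sym2 ℕ → Bool) × (ℕ → unitInterval) => Φ p.1 p.2) ∧
      (∀ (σ : Equiv.Perm ℕ) (A : Sym2 ℕ → Bool) (U : ℕ → unitInterval) (e : Sym2 ℕ),
        Φ (A ∘ Sym2.map σ) (U ∘ σ) e = Φ A U (e.map σ)) ∧
      ∀ G : SimpleGraph ℕ, G.Connected → (∀ v, (G.neighborSet v).Finite) →
        IsFUSF G ((labelLaw ℕ).map (Φ (edgeCode G)))) := by
  refine ⟨?_, ?_, ?_⟩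
  · intro Γ _ S hS hgen
    have := countable_of_closure_eq_top hS hgen
    refine ⟨exists_exhaustion (mulCayley_connected hgen), ?_⟩
    obtain ⟨Φ, h1, h2, h3⟩ :=
      exists_factor (SimpleGraph.mulCayley S) (mulCayley_neighborSet_finite hS)
    exact ⟨Φ, h1, fun γ U e => h2 (cayleyTranslate S γ) U e, h3⟩
  · intro V _ G hG hlf
    exact ⟨exists_exhaustion hG, exists_factor G hlf⟩
  · exact ⟨forestMap, measurable_forestMap, fun σ A U e => forestMap_map σ A U e,
      fun G _ hlf => isFUSF_forestMap hlf⟩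

end Vale.Agent.P143
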